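import Vale.Agent.P050.O.H300.Defs
import Vale.Agent.P050.R2.H300.Basic

set_option linter.all false

/-!
Dense targets, optimal order: basic facts about the paths, the shapes and the functions.
-/

open MeasureTheory Finset

namespace Vale.Agent.P050.Opt

open Vale.Agent.P050 Vale.Agent.P050.Dense

section graph

variable {V : Type*}

@[simp] theorem hd_nil (a : V) : hd a [] = a := rfl
@[simp] theorem hd_cons (a w : V) (L : List V) : hd a (w :: L) = w := rfl

theorem hd_append (v a : V) (L : List V) : hd v (L ++ [a]) = hd a L := by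
  cases L <;> rfl

theorem hd_append_cons (v a : V) (L L₀ : List V) : hd v (L ++ a :: L₀) = hd a L := by
  cases L <;> rfl

theorem hd_eq (a : V) (L : List V) : ∃ l, L ++ [a] = hd a L :: l := by
  cases L with
  | nil => exact ⟨[], rfl⟩
  | cons w L => exact ⟨L ++ [a], rfl⟩

theorem hd_mem_list (a : V) (L : List V) : hd a L ∈ L ++ [a] := by
  cases L <;> simp

theorem cons_iff {a : V} {L : List V} {x y : V} :
    Cons a L x y ↔ ∃ l₁ l₂, L ++ [a] = l₁ ++ x :: y :: l₂ := by
  induction L with
  | nil =>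
    constructor
    · intro h; exact h.elim
    · rintro ⟨l₁, l₂, h⟩
      have := congrArg List.length h
      simp at this
      omega
  | cons w L ih =>
    simp only [Cons]
    constructor
    · rintro (⟨rfl, rfl⟩ | h)
      · obtain ⟨l, hl⟩ := hd_eq a L
        exact ⟨[], l, by rw [List.cons_append, hl]; rfl⟩
      · obtain ⟨l₁, l₂, h⟩ := ih.1 h
        exact ⟨w :: l₁, l₂, by rw [List.cons_append, h]; rfl⟩
    · rintro ⟨l₁, l₂, h⟩
      cases l₁ with
      | nil =>
        left
        obtain ⟨l, hl⟩ := hd_eq a L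
        rw [List.cons_append, hl] at h
        simp only [List.nil_append, List.cons.injEq] at h
        exact ⟨h.1.symm, h.2.1.symm⟩
      | cons b l₁ =>
        right
        refine ih.2 ⟨l₁, l₂, ?_⟩
        simp only [List.cons_append, List.cons.injEq] at h
        exact h.2

theorem cons_append {v a : V} {L : List V} {x y : V} :
    Cons v (L ++ [a]) x y ↔ Cons a L x y ∨ (x = a ∧ y = v) := by
  induction L with
  | nil => simp [Cons]
  | cons w L ih =>
    simp only [List.cons_append, Cons, ih, hd_append]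
    tauto

theorem cons_append_cons {v a : V} {L L₀ : List V} {x y : V} :
    Cons v (L ++ a :: L₀) x y ↔ Cons a L x y ∨ (x = a ∧ y = hd v L₀) ∨ Cons v L₀ x y := by
  induction L with
  | nil => simp [Cons]
  | cons w L ih =>
    simp only [List.cons_append, Cons, ih, hd_append_cons]
    tauto

/-- two paths with the same vertices in the opposite order -/
theorem cons_reverse {a b : V} {L M : List V} (h : M ++ [b] = (L ++ [a]).reverse) {x y : V} :
    Cons b M x y ↔ Cons a L y x := by
  rw [cons_iff, cons_iff, h]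
  constructor
  · rintro ⟨l₁, l₂, h⟩
    refine ⟨l₂.reverse, l₁.reverse, ?_⟩
    have := congrArg List.reverse h
    rw [List.reverse_reverse] at this
    rw [this]
    simp
  · rintro ⟨l₁, l₂, h⟩
    refine ⟨l₂.reverse, l₁.reverse, ?_⟩
    rw [h]
    simp

section dec

variable [DecidableEq V]

@[simp] theorem mem_vs {a : V} {L : List V} {x : V} : x ∈ vs a L ↔ x = a ∨ x ∈ L := by
  simp [vs]

theorem mem_vs' {a : V} {L : List V} {x : V} : x ∈ vs a L ↔ x ∈ L ++ [a] := by
  simp [vs, or_comm]

theorem mem_pv {a : V} {L : List V} {x : V} : x ∈ pv a L ↔ x ∈ (L ++ [a]).tail := by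
  cases L with
  | nil => simp [pv]
  | cons w L => simp [pv, or_comm]

@[simp] theorem vs_nil (a : V) : vs a [] = {a} := by
  ext; simp

theorem vs_cons (a w : V) (L : List V) : vs a (w :: L) = insert w (vs a L) := by
  ext x; simp; tauto

theorem vs_append (v a : V) (L : List V) : vs v (L ++ [a]) = insert v (vs a L) := by
  ext x; simp; tauto

theorem vs_append_cons (v a : V) (L L₀ : List V) :
    vs v (L ++ a :: L₀) = vs a L ∪ vs v L₀ := by
  ext x
  simp only [mem_vs, Finset.mem_union, List.mem_append, List.mem_cons]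
  tauto

theorem hd_mem (a : V) (L : List V) : hd a L ∈ vs a L := mem_vs'.2 (hd_mem_list a L)

theorem vs_eq_insert (a : V) (L : List V) : vs a L = insert (hd a L) (pv a L) := by
  cases L with
  | nil => simp [pv]
  | cons w L => rw [vs_cons]; rfl

theorem hd_notMem_pv {a : V} {L : List V} (h : (L ++ [a]).Nodup) : hd a L ∉ pv a L := by
  obtain ⟨l, hl⟩ := hd_eq a L
  rw [mem_pv, hl]
  rw [hl] at h
  exact (List.nodup_cons.1 h).1

theorem card_vs {a : V} {L : List V} (h : (L ++ [a]).Nodup) : (vs a L).card = L.length + 1 := by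
  have : vs a L = (L ++ [a]).toFinset := by
    ext x; simp
  rw [this, List.toFinset_card_of_nodup h]
  simp

theorem length_lt [Fintype V] {a : V} {L : List V} (h : (L ++ [a]).Nodup) :
    L.length < Fintype.card V := by
  have := card_vs h
  have h2 := Finset.card_le_univ (vs a L)
  omega

theorem mem_Wk [Fintype V] {H : SimpleGraph V} [DecidableRel H.Adj] {a : V} {Λ : Finset V} {j : ℕ}
    {L : List V} : L ∈ Wk H a Λ j ↔
      L.length = j ∧ (L ++ [a]).Nodup ∧ (∀ x ∈ L, x ∈ Λ) ∧ ∀ x y, Cons a L x y → H.Adj x y := by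
  induction j generalizing L with
  | zero =>
    simp only [Wk, Finset.mem_singleton]
    constructor
    · rintro rfl
      exact ⟨rfl, by simp, by simp, fun x y h => h.elim⟩
    · rintro ⟨h, _⟩
      exact List.length_eq_zero_iff.1 h
  | succ j ih =>
    simp only [Wk, Finset.mem_biUnion, Finset.mem_image, Finset.mem_filter, Finset.mem_sdiff]
    constructor
    · rintro ⟨L', hL', w, ⟨⟨hw, hw'⟩, hadj⟩, rfl⟩
      obtain ⟨h1, h2, h3, h4⟩ := ih.1 hL'
      refine ⟨by simp [h1], ?_, ?_, ?_⟩
      · rw [List.cons_append, List.nodup_cons]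
        exact ⟨fun h => hw' (mem_vs'.2 h), h2⟩
      · intro x hx
        rcases List.mem_cons.1 hx with rfl | hx
        · exact hw
        · exact h3 x hx
      · rintro x y (⟨rfl, rfl⟩ | h)
        · exact hadj.symm
        · exact h4 x y h
    · rintro ⟨h1, h2, h3, h4⟩
      cases L with
      | nil => simp at h1
      | cons w L =>
        rw [List.cons_append, List.nodup_cons] at h2
        refine ⟨L, ih.2 ⟨by simpa using h1, h2.2, fun x hx => h3 x (List.mem_cons_of_mem _ hx),
          fun x y h => h4 x y (Or.inr h)⟩, w, ⟨⟨h3 w List.mem_cons_self,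
          fun h => h2.1 (mem_vs'.1 h)⟩, (h4 w (hd a L) (Or.inl ⟨rfl, rfl⟩)).symm⟩, rfl⟩

theorem mem_Shs [Fintype V] {H : SimpleGraph V} [DecidableRel H.Adj] {Λ : Finset V} {j : ℕ}
    {q : V × List V × Option (Option V) × Finset V × Bool} : q ∈ Shs H Λ j ↔
      q.1 ∈ Λ ∧ q.2.1 ∈ Wk H q.1 Λ j ∧ Shape H q.1 q.2.1 q.2.2.1 q.2.2.2.1 q.2.2.2.2 := by
  obtain ⟨a, L, B, S, b⟩ := q
  simp only [Shs, Finset.mem_biUnion, Finset.mem_sigma, Finset.mem_image, Finset.mem_filter,
    Finset.mem_univ, true_and]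
  constructor
  · rintro ⟨⟨a', L'⟩, ⟨h1, h2⟩, ⟨B', S', b'⟩, h3, h4⟩
    simp only [Prod.mk.injEq] at h4
    obtain ⟨rfl, rfl, rfl, rfl, rfl⟩ := h4
    exact ⟨h1, h2, h3⟩
  · rintro ⟨h1, h2, h3⟩
    exact ⟨⟨a, L⟩, ⟨h1, h2⟩, ⟨B, S, b⟩, h3, rfl⟩

end dec

/-- the reverse of the path `(v, L ++ [a])` is the path `(hd a L, rvL a L v)` -/
def rvL (a : V) (L : List V) (v : V) : List V := v :: ((L ++ [a]).tail).reverse

@[simp] theorem hd_rvL (b a : V) (L : List V) (v : V) : hd b (rvL a L v) = v := rfl

theorem rvL_length (a : V) (L : List V) (v : V) : (rvL a L v).length = L.length + 1 := by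
  simp [rvL]

theorem rvL_append (a : V) (L : List V) (v : V) :
    rvL a L v ++ [hd a L] = ((L ++ [a]) ++ [v]).reverse := by
  obtain ⟨l, hl⟩ := hd_eq a L
  unfold rvL
  rw [hl]
  simp

theorem cons_rvL {a : V} {L : List V} {v x y : V} :
    Cons (hd a L) (rvL a L v) x y ↔ Cons v (L ++ [a]) y x := cons_reverse (rvL_append a L v)

theorem vs_rvL [DecidableEq V] (a : V) (L : List V) (v : V) :
    vs (hd a L) (rvL a L v) = {v} ∪ vs a L := by
  ext x
  rw [mem_vs', rvL_append]
  simp

end graph

section kernel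

variable {V : Type*} [Fintype V] [DecidableEq V] {Ω : Type*} [MeasurableSpace Ω]
variable {μ : Measure Ω} {U : Sym2 Ω → ℝ} {R : V → Ω → ℝ} {κ η : ℝ}

theorem pU_append_cons (U : Sym2 Ω → ℝ) (v a : V) (L L₀ : List V) (z : V → Ω) :
    pU U v (L ++ a :: L₀) z = pU U v L₀ z * U s(z (hd v L₀), z a) * pU U a L z := by
  induction L with
  | nil => simp [pU]; ring
  | cons w L ih =>
    simp only [List.cons_append, pU, ih, hd_append_cons]
    ring

theorem pU_append (U : Sym2 Ω → ℝ) (v a : V) (L : List V) (z : V → Ω) :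
    pU U v (L ++ [a]) z = U s(z v, z a) * pU U a L z := by
  rw [pU_append_cons]
  simp [pU]

/-- the product over the consecutive pairs of a list -/
noncomputable def pl (U : Sym2 Ω → ℝ) (z : V → Ω) : List V → ℝ
  | [] => 1
  | [_] => 1
  | x :: y :: l => U s(z y, z x) * pl U z (y :: l)

theorem pU_eq_pl (U : Sym2 Ω → ℝ) (a : V) (L : List V) (z : V → Ω) :
    pU U a L z = pl U z (L ++ [a]) := by
  induction L with
  | nil => simp [pU, pl]
  | cons w L ih =>
    obtain ⟨l, hl⟩ := hd_eq a L
    rw [pU, ih, List.cons_append, hl]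
    rfl

theorem pl_append (U : Sym2 Ω → ℝ) (z : V → Ω) (l : List V) (x y : V) :
    pl U z (l ++ [x, y]) = pl U z (l ++ [x]) * U s(z x, z y) := by
  induction l with
  | nil => simp [pl, Sym2.eq_swap]
  | cons w l ih =>
    cases l with
    | nil =>
      simp only [List.cons_append, List.nil_append, pl]
      rw [Sym2.eq_swap (a := z y)]
      ring
    | cons w' l =>
      simp only [List.cons_append, pl] at ih ⊢
      rw [ih]
      ring

theorem pl_reverse (U : Sym2 Ω → ℝ) (z : V → Ω) (l : List V) :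
    pl U z l.reverse = pl U z l := by
  induction l with
  | nil => rfl
  | cons x l ih =>
    cases l with
    | nil => rfl
    | cons y l =>
      have : (x :: y :: l).reverse = l.reverse ++ [y, x] := by simp
      rw [this, pl_append]
      have h2 : (y :: l).reverse = l.reverse ++ [y] := by simp
      rw [← h2, ih, pl]
      ring

theorem pU_reverse (U : Sym2 Ω → ℝ) {a b : V} {L M : List V} (h : M ++ [b] = (L ++ [a]).reverse)
    (z : V → Ω) : pU U b M z = pU U a L z := by
  rw [pU_eq_pl, pU_eq_pl, h, pl_reverse]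

theorem pU_rvL (U : Sym2 Ω → ℝ) (a : V) (L : List V) (v : V) (z : V → Ω) :
    pU U (hd a L) (rvL a L v) z = U s(z v, z a) * pU U a L z := by
  rw [pU_reverse U (rvL_append a L v), pU_append]

/-! ### measurability and independence -/

theorem bm_pU (hU : Good U 1) (a : V) (L : List V) : BM (pU U a L) := by
  induction L with
  | nil => exact BM.const 1
  | cons w L ih => exact (bm_U hU _ _).mul ih

theorem bm_eval {g : Ω → ℝ} (hg : BM g) (v : V) : BM (fun z : V → Ω => g (z v)) :=
  hg.comp (g := fun z : V → Ω => z v) (by fun_prop)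

theorem bm_bf (hU : Good U 1) (hR : ∀ v, BM (R v)) (a : V) (B : Option (Option V)) :
    BM (bf U R a B) := by
  match B with
  | none => exact BM.const 1
  | some none => exact bm_eval (hR a) a
  | some (some c) => exact bm_U hU _ _

theorem bm_cl (hU : Good U 1) (hR : ∀ v, BM (R v)) (u : V) (S : Finset V) (b : Bool) :
    BM (cl U R u S b) := by
  refine (BM.finprod S fun x _ => bm_U hU _ _).mul ?_
  cases b
  · exact BM.const 1
  · exact bm_eval (hR u) u

theorem bm_psi (hU : Good U 1) (hR : ∀ v, BM (R v)) (a : V) (L : List V)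
    (B : Option (Option V)) (S : Finset V) (b : Bool) : BM (psi U R a L B S b) :=
  ((bm_pU hU a L).mul (bm_bf hU hR a B)).mul (bm_cl hU hR _ S b)

theorem bm_Env (H : SimpleGraph V) [DecidableRel H.Adj] (hU : Good U 1) (hR : ∀ v, BM (R v))
    (Λ : Finset V) : BM (Env H U R Λ) := by
  refine (BM.finprod Λ fun v _ => (BM.const 1).add (bm_eval (hR v) v)).mul ?_
  refine BM.finprod _ fun e _ => (BM.const 1).add ?_
  induction e with
  | _ x y => exact bm_U hU x y

theorem bm_Kp (hU : Good U 1) (X : Finset V) (O : V → Finset V) (Λ : Finset V) :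
    BM (Kp U X O Λ) :=
  BM.finprod X fun x _ => BM.finprod _ fun w _ => (BM.const 1).add (bm_U hU x w)

theorem ind_pU (U : Sym2 Ω → ℝ) {a : V} {L : List V} {v : V} (hv : v ∉ vs a L) :
    Ind v (pU U a L) := by
  intro x t
  induction L with
  | nil => rfl
  | cons w L ih =>
    rw [vs_cons, Finset.mem_insert, not_or] at hv
    have h1 : hd a L ≠ v := fun h => hv.2 (h ▸ hd_mem a L)
    rw [pU, pU, ih hv.2, Function.update_of_ne h1, Function.update_of_ne (Ne.symm hv.1)]

theorem ind_bf (U : Sym2 Ω → ℝ) (R : V → Ω → ℝ) {a : V} {B : Option (Option V)} {v : V}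
    (hv : v ≠ a) (hB : ∀ c, B = some (some c) → v ≠ c) : Ind v (bf U R a B) := by
  intro x t
  match B, hB with
  | none, _ => rfl
  | some none, _ => simp only [bf]; rw [Function.update_of_ne hv.symm]
  | some (some c), hB =>
    simp only [bf]
    rw [Function.update_of_ne hv.symm, Function.update_of_ne (hB c rfl).symm]

theorem ind_cl (U : Sym2 Ω → ℝ) (R : V → Ω → ℝ) {u : V} {S : Finset V} {b : Bool} {v : V}
    (hv : v ≠ u) (hS : v ∉ S) : Ind v (cl U R u S b) := by
  intro x t
  unfold cl
  rw [Function.update_of_ne hv.symm]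
  congr 1
  refine Finset.prod_congr rfl fun y hy => ?_
  have h1 : y ≠ v := fun h => hS (h ▸ hy)
  rw [Function.update_of_ne h1]

theorem ind_Env (H : SimpleGraph V) [DecidableRel H.Adj] (U : Sym2 Ω → ℝ) (R : V → Ω → ℝ)
    {Λ : Finset V} {v : V} (hv : v ∉ Λ) : Ind v (Env H U R Λ) := by
  intro x t
  unfold Env
  congr 1
  · refine Finset.prod_congr rfl fun y hy => ?_
    have h1 : y ≠ v := fun h => hv (h ▸ hy)
    rw [Function.update_of_ne h1]
  · refine Finset.prod_congr rfl fun e he => ?_
    have h1 := (Finset.mem_filter.1 he).2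
    congr 2
    refine Sym2.map_congr fun y hy => ?_
    have h2 : y ≠ v := fun h => hv (h ▸ h1 y hy)
    rw [Function.update_of_ne h2]

theorem ind_Kp (U : Sym2 Ω → ℝ) {X : Finset V} {O : V → Finset V} {Λ : Finset V} {v : V}
    (hX : v ∉ X) (hΛ : v ∉ Λ) : Ind v (Kp U X O Λ) := by
  intro x t
  unfold Kp
  refine Finset.prod_congr rfl fun y hy => Finset.prod_congr rfl fun w hw => ?_
  have h1 : y ≠ v := fun h => hX (h ▸ hy)
  have h2 : w ≠ v := fun h => hΛ (h ▸ (Finset.mem_inter.1 hw).2)
  rw [Function.update_of_ne h1, Function.update_of_ne h2]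

theorem bm_IT (H : SimpleGraph V) [DecidableRel H.Adj] (hU : Good U 1) (hR : ∀ v, BM (R v))
    {G : (V → Ω) → ℝ} (hG : BM G) (X : Finset V) (O : V → Finset V) (Λ : Finset V) :
    BM (fun z => G z * Kp U X O Λ z * Env H U R Λ z) :=
  (hG.mul (bm_Kp hU X O Λ)).mul (bm_Env H hU hR Λ)

theorem IT_add (H : SimpleGraph V) [DecidableRel H.Adj] (μ : Measure Ω) [IsProbabilityMeasure μ]
    (hU : Good U 1) (hR : ∀ v, BM (R v))
    {G G' : (V → Ω) → ℝ} (hG : BM G) (hG' : BM G') (X : Finset V) (O : V → Finset V)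
    (Λ : Finset V) : IT H μ U R (fun z => G z + G' z) X O Λ =
      IT H μ U R G X O Λ + IT H μ U R G' X O Λ := by
  unfold IT
  rw [← integral_add ((bm_IT H hU hR hG X O Λ).integrable _)
    ((bm_IT H hU hR hG' X O Λ).integrable _)]
  congr 1
  ext z
  ring

theorem IT_congr (H : SimpleGraph V) [DecidableRel H.Adj] (μ : Measure Ω)
    {G G' : (V → Ω) → ℝ} {X X' : Finset V} {O O' : V → Finset V} {Λ Λ' : Finset V}
    (hG : ∀ z, G z = G' z) (hX : X = X') (hO : ∀ x ∈ X', O x = O' x) (hΛ : Λ = Λ') :
    IT H μ U R G X O Λ = IT H μ U R G' X' O' Λ' := by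
  subst hX hΛ
  unfold IT
  congr 1
  ext z
  rw [hG]
  congr 2
  unfold Kp
  exact Finset.prod_congr rfl fun x hx => by rw [hO x hx]

end kernel

end Vale.Agent.P050.Opt
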