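import Vale.Agent.P050.O.H300.Stage
import Vale.Agent.P050.O.H234.Log
import Vale.Agent.P050.O.H559.TB
import Vale.Agent.P050.O.H738.Glp
import Vale.Agent.P050.O.H625.Gk
import Vale.Agent.P050.O.H904.SumLe
import Vale.Agent.P050.O.H15.C3

set_option linter.all false

/-!
Dense targets, optimal order: the main inequality `log ZE ≥ - (1/4) Σ rr`.
-/

open MeasureTheory Finset

namespace Vale.Agent.P050.Opt

open Vale.Agent.P050 Vale.Agent.P050.Dense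

variable {V : Type*} [Fintype V] [DecidableEq V] {Ω : Type*} [MeasurableSpace Ω]
variable (H : SimpleGraph V) [DecidableRel H.Adj]
variable (μ : Measure Ω) [IsProbabilityMeasure μ] {U : Sym2 Ω → ℝ} {R : V → Ω → ℝ} {κ η : ℝ}

theorem rr_nonneg (R : V → Ω → ℝ) (v : V) : 0 ≤ rr μ R v :=
  integral_nonneg fun s => sq_nonneg _

theorem TT3_nonneg (hκ : 0 ≤ κ) (a : V) (L : List V) (B : Option (Option V)) (S : Finset V)
    (b : Bool) : 0 ≤ TT3 μ U R κ a L B S b := by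
  unfold TT3
  have h1 := rr_nonneg μ R a
  have h2 := ck_nonneg μ (U := U) (gk a L B S)
  split_ifs <;> positivity

/-- B2 -/
theorem tb (hH : H.IsBipartite) (hU : Ker μ U κ η) (hR : One μ R) :
    TB H μ U R (fun q => TT3 μ U R κ q.1 q.2.1 q.2.2.1 q.2.2.2.1 q.2.2.2.2) := by
  refine H559.tb_of_glp μ H hU hR ?_
  intro a L B S b hs hc h hh h1
  exact glp_of H μ hU hs (gk_ge hH hs hc).1 hc hh h1

/-- C5 -/
theorem sum_le (o : V → ℕ) {D : ℕ} (ho : Function.Injective o) (hH : H.IsBipartite)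
    (hD : ∀ v, H.degree v ≤ D) (hU : Ker μ U κ η) (hR : One μ R)
    (hκ : 10 ^ 12 * D * κ ≤ 1) :
    8 * ∑ j ∈ range (Fintype.card V), ∑ q ∈ Shs H univ j, 4 ^ (j + 1) *
        TT3 μ U R κ q.1 q.2.1 q.2.2.1 q.2.2.2.1 q.2.2.2.2 ≤
      1 / 4 * ∑ v, rr μ R v +
      1 / 2 * ∑ k ∈ range (Fintype.card V), ((Cyc H o k).card : ℝ) * ((1 / 2) ^ k * ck μ U k) :=
  H904.sum_le_of H μ o hU.κ0
    (fun a L B S b hs hc => ⟨(gk_ge hH hs hc).1, (gk_ge hH hs hc).2.2⟩)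
    (fun a L B S hs hB => gk_le hH hs hB)
    (count_gk_of H o ho (fun hs hc => gk_ge hH hs hc) hD)
    (count_rr H hD) hκ

/-- the main inequality -/
theorem main_log_of {D : ℕ} (hH : H.IsBipartite) (hD : ∀ v, H.degree v ≤ D) (hU : Ker μ U κ η)
    (hη : (1 + η) ^ D ≤ 2) (hR : One μ R) (hκ : 10 ^ 12 * D * κ ≤ 1)
    (hpos : ∀ Λ, 0 < ZE H μ U R Λ)
    (hr : ∀ Λ v, v ∉ Λ → |ZE H μ U R (insert v Λ) - ZE H μ U R Λ| ≤ 1 / 8 * ZE H μ U R Λ) :
    -(1 / 4 * ∑ v, rr μ R v) ≤ Real.log (ZE H μ U R univ) := by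
  classical
  obtain ⟨o, ho⟩ : ∃ o : V → ℕ, Function.Injective o :=
    ⟨fun v => (Fintype.equivFin V v : ℕ), fun a b h =>
      (Fintype.equivFin V).injective (Fin.ext h)⟩
  have hκ0 := hU.κ0
  have hDκ : (0 : ℝ) ≤ D * κ := by positivity
  have h24 : 24 * D * κ ≤ 1 := by nlinarith
  have hT := tb H μ hH hU hR
  have hT0 : ∀ q : Sh V, 0 ≤ TT3 μ U R κ q.1 q.2.1 q.2.2.1 q.2.2.2.1 q.2.2.2.2 :=
    fun q => TT3_nonneg μ hκ0 _ _ _ _ _
  have h1 := log_ge_of H o μ ho hpos hr hT0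
    (fun Λ v hv => stage H o μ ho hH hD hU hη hR h24 hT0 hT hv)
  have h2 := sum_le H μ o ho hH hD hU hR hκ
  linarith

end Vale.Agent.P050.Opt
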