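import Vale.Agent.P050.O.H300.EntDefs
import Vale.Agent.P050.H398.MulDefs

set_option linter.all false

/-!
Dense targets, assembled graphs: definitions.
-/

open MeasureTheory Finset

namespace Vale.Agent.P050.Opt

open Vale.Agent.P050 Vale.Agent.P050.Dense

/-- The least class of graphs which contains all Sidorenko graphs and all bipartite graphs of
maximum degree at most `D`, and which is closed under gluing two members at (at most) one vertex,
and under joining copies `f 0, f 1, ..` of one member one after the other, each copy `f i` meeting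
the union of the earlier ones exactly in a set `S` of vertices which induces a forest, where it
agrees with one earlier copy `f j`. -/
inductive Assembled (D : ℕ) : (V : Type) → SimpleGraph V → Prop
  | base (V : Type) (H : SimpleGraph V) : Finite V → H.IsBipartite →
      (∀ v, (H.neighborSet v).ncard ≤ D) → Assembled D V H
  | sid (V : Type) (H : SimpleGraph V) : Finite V → IsSidorenko H → Assembled D V H
  | glue (V₁ V₂ V : Type) (H₁ : SimpleGraph V₁) (H₂ : SimpleGraph V₂) (f₁ : V₁ ↪ V)
      (f₂ : V₂ ↪ V) : Assembled D V₁ H₁ → Assembled D V₂ H₂ →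
      (∀ u v u' v', f₁ u = f₂ v → f₁ u' = f₂ v' → u = u') →
      (∀ x, (∃ u, f₁ u = x) ∨ ∃ v, f₂ v = x) → Assembled D V (H₁.map f₁ ⊔ H₂.map f₂)
  | copies (V₀ V : Type) (H : SimpleGraph V₀) (n : ℕ) (f : Fin (n + 1) → V₀ ↪ V) :
      Assembled D V₀ H →
      (∀ i, i ≠ 0 → ∃ j < i, ∃ S : Set V₀, (H.induce S).IsAcyclic ∧ (∀ u ∈ S, f i u = f j u) ∧
        ∀ u ∉ S, ∀ l < i, ∀ v, f l v ≠ f i u) →
      (∀ x, ∃ i u, f i u = x) → Assembled D V (⨆ i, H.map (f i))

/-- the empirical law of a sequence -/
noncomputable def emp {A : Type*} [DecidableEq A] {N : ℕ} (Z : Fin N → A) (a : A) : ℝ :=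
  ((univ.filter fun i => Z i = a).card : ℝ) / N

end Vale.Agent.P050.Opt
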