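import Vale.Agent.P050.O.H625.Asm
import Vale.Agent.P050.O.H111.EntBase
import Vale.Agent.P050.O.H111.EntGlue
import Vale.Agent.P050.O.H694.EntSidFin
import Vale.Agent.P050.O.H128.TreeFin
import Vale.Agent.P050.O.H774.ClAsm
import Vale.Agent.P050.O.H322.Bip
import Vale.Agent.P050.O.H612.SidFin

set_option linter.all false

/-!
Dense targets, assembled graphs: final statements.
-/

open MeasureTheory Finset

namespace Vale.Agent.P050.Opt

open Vale.Agent.P050 Vale.Agent.P050.Dense Vale.Agent.P050.H753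

namespace H300

theorem ent_asm {D : ℕ} {V Ω : Type} [Fintype Ω] [DecidableEq Ω]
    [MeasurableSpace Ω] [MeasurableSingletonClass Ω] {H : SimpleGraph V} (h : Assembled D V H)
    (μ : Measure Ω) [IsProbabilityMeasure μ] (hμ : ∀ s, 0 < μ.real {s}) {U : Sym2 Ω → ℝ}
    {κ η : ℝ} (hU : Ker μ U κ η) (hη : (1 + η) ^ D ≤ 2) (hκ : 10 ^ 12 * D * κ ≤ 1) :
    ∀ [Fintype V] [DecidableEq V], Ent H (fun s => μ.real {s}) U :=
  ent_asm_of (fun V _ _ H hb hD => H111.ent_base H hb hD μ hμ hU hη hκ)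
    (fun V _ _ H hs => ent_sid hs (wt_of_ker μ hμ hU))
    (fun V₁ V₂ V _ _ _ _ _ _ H₁ H₂ f₁ f₂ h hc h1 h2 =>
      ent_glue H₁ H₂ f₁ f₂ h hc (wt_of_ker μ hμ hU) h1 h2)
    (fun V₀ V _ _ _ _ H n f h1 h3 hE => ent_tree H n f h1 h3 (wt_of_ker μ hμ hU) hE) h

theorem cl_measurable {V Ω : Type} [Fintype V] [DecidableEq V] [MeasurableSpace Ω]
    (H : SimpleGraph V) [DecidableRel H.Adj] (μ : Measure Ω) [IsProbabilityMeasure μ]
    (W : Ω → Ω → ℝ) (hW : ∀ s t, W s t = W t s) (p C : ℝ) (D : ℕ) (hA : Assembled D V H)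
    (hm : Measurable (Function.uncurry W)) (hb : ∀ s t, 0 ≤ W s t ∧ W s t ≤ C)
    (hint : ∫ s, ∫ t, W s t ∂μ ∂μ = p)
    (hcl : ∀ᵐ z ∂(μ.prod μ), p * W z.1 z.2 ≤
      (1 + 1 / (10 ^ 13 * (D:ℝ))) * ((∫ t, W z.1 t ∂μ) * ∫ t, W z.2 t ∂μ)) :
    p ^ H.edgeFinset.card ≤ kernelDensity μ H W hW :=
  cl_measurable_asm_of (fun h μ _ hμ _ _ _ hU hη hκ => ent_asm h μ hμ hU hη hκ)
    H μ W hW p C D hA hm hb hint hcl

end H300

end Vale.Agent.P050.Opt
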