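import Vale.Agent.P050.R2.H300.Defs

set_option linter.all false

/-!
Dense targets, optimal order: definitions.

`H` is a graph on `V`; `μ`, `U` as before (`Dense.Ker`); `R v` are one-body functions with mean
`0`.  A path `a, w₁, …, w_j` is stored as the vertex `a` and the list `[w_j, …, w₁]`.
-/

open MeasureTheory Finset

namespace Vale.Agent.P050.Opt

open Vale.Agent.P050 Vale.Agent.P050.Dense

section graph

variable {V : Type*} [Fintype V] [DecidableEq V]

/-- the last vertex of the path -/
def hd (a : V) : List V → V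
  | [] => a
  | w :: _ => w

/-- the vertices of the path -/
def vs (a : V) (L : List V) : Finset V := insert a L.toFinset

/-- the vertices of the path before the last one -/
def pv (a : V) : List V → Finset V
  | [] => ∅
  | _ :: L => vs a L

/-- all paths with `j` steps which start at `a` and continue inside `Λ` -/
def Wk (H : SimpleGraph V) [DecidableRel H.Adj] (a : V) (Λ : Finset V) : ℕ → Finset (List V)
  | 0 => {[]}
  | j + 1 => (Wk H a Λ j).biUnion fun L =>
      ((Λ \ vs a L).filter fun w => H.Adj (hd a L) w).image (fun w => w :: L)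

/-- consecutive vertices of the path -/
def Cons (a : V) : List V → V → V → Prop
  | [], _, _ => False
  | w :: L, x, y => (x = w ∧ y = hd a L) ∨ Cons a L x y

/-- the graph of a shape: the path `(a, L)`, a chord from `a` to `c` if `B = some (some c)`, the
chords from the last vertex to the vertices of `S` -/
def FG (a : V) (L : List V) (B : Option (Option V)) (S : Finset V) : SimpleGraph V :=
  SimpleGraph.fromRel fun x y => Cons a L x y ∨ (x = a ∧ B = some (some y)) ∨ (x ∈ S ∧ y = hd a L)

/-- half of the length of the shortest cycle of a shape -/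
noncomputable def gk (a : V) (L : List V) (B : Option (Option V)) (S : Finset V) : ℕ :=
  (FG a L B S).girth / 2

/-- valid shapes: `(a, L)` is a path of `H` with at least one edge, `B = none` (nothing),
`some none` (a mark at `a`), `some (some c)` (a chord from `a` to `c`, `c` neither the second nor
the last vertex); `S` = chords at the last vertex, `b` = mark at the last vertex; at least two
additional factors, at least one of them at the last vertex -/
structure Shape (H : SimpleGraph V) (a : V) (L : List V) (B : Option (Option V)) (S : Finset V)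
    (b : Bool) : Prop where
  nd : (L ++ [a]).Nodup
  path : ∀ x y, Cons a L x y → H.Adj x y
  ne : L ≠ []
  sS : S ⊆ (pv a L.tail)
  aS : ∀ x ∈ S, H.Adj x (hd a L)
  aB : ∀ c, B = some (some c) → c ∈ L.tail.dropLast ∧ H.Adj a c
  two : (if B = none then 0 else 1) + S.card + (if b then 1 else 0) ≥ 2
  one : S.card + (if b then 1 else 0) ≥ 1

open scoped Classical in
/-- all shapes inside `Λ` whose path has `j` steps -/
noncomputable def Shs (H : SimpleGraph V) [DecidableRel H.Adj] (Λ : Finset V) (j : ℕ) :
    Finset (V × List V × Option (Option V) × Finset V × Bool) :=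
  (Λ.sigma fun a => Wk H a Λ j).biUnion fun p =>
    ((univ : Finset (Option (Option V) × Finset V × Bool)).filter fun q =>
      Shape H p.1 p.2 q.1 q.2.1 q.2.2).image fun q => (p.1, p.2, q.1, q.2.1, q.2.2)

end graph

section kernel

variable {V : Type*} [Fintype V] [DecidableEq V] {Ω : Type*} [MeasurableSpace Ω]

/-- one-body functions with mean `0` -/
structure One (μ : Measure Ω) (R : V → Ω → ℝ) : Prop where
  bm : ∀ v, BM (R v)
  zero : ∀ v, ∫ s, R v s ∂μ = 0
  bd : ∀ v s, |R v s| ≤ 1 / 2

/-- the second moment of the one-body function -/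
noncomputable def rr (μ : Measure Ω) (R : V → Ω → ℝ) (v : V) : ℝ := ∫ s, R v s ^ 2 ∂μ

/-- the weight of the unexplored part -/
noncomputable def Env (H : SimpleGraph V) [DecidableRel H.Adj] (U : Sym2 Ω → ℝ) (R : V → Ω → ℝ)
    (Λ : Finset V) (z : V → Ω) : ℝ :=
  (∏ v ∈ Λ, (1 + R v (z v))) *
    ∏ e ∈ H.edgeFinset.filter (fun e => ∀ v ∈ e, v ∈ Λ), (1 + U (e.map z))

/-- the partition function -/
noncomputable def ZE (H : SimpleGraph V) [DecidableRel H.Adj] (μ : Measure Ω) (U : Sym2 Ω → ℝ)
    (R : V → Ω → ℝ) (Λ : Finset V) : ℝ :=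
  ∫ z, Env H U R Λ z ∂(piM V μ)

/-- the kept edges between the explored vertices `X` and the unexplored vertices `Λ` -/
noncomputable def Kp (U : Sym2 Ω → ℝ) (X : Finset V) (O : V → Finset V) (Λ : Finset V)
    (z : V → Ω) : ℝ :=
  ∏ x ∈ X, ∏ w ∈ O x ∩ Λ, (1 + U s(z x, z w))

/-- the value of a state -/
noncomputable def IT (H : SimpleGraph V) [DecidableRel H.Adj] (μ : Measure Ω) (U : Sym2 Ω → ℝ)
    (R : V → Ω → ℝ) (G : (V → Ω) → ℝ) (X : Finset V) (O : V → Finset V) (Λ : Finset V) : ℝ :=
  ∫ z, G z * Kp U X O Λ z * Env H U R Λ z ∂(piM V μ)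

/-- the product of `U` along the path -/
noncomputable def pU (U : Sym2 Ω → ℝ) (a : V) : List V → (V → Ω) → ℝ
  | [], _ => 1
  | w :: L, z => U s(z (hd a L), z w) * pU U a L z

/-- the chords `S` and the mark `b` at the vertex `u` -/
noncomputable def cl (U : Sym2 Ω → ℝ) (R : V → Ω → ℝ) (u : V) (S : Finset V) (b : Bool)
    (z : V → Ω) : ℝ :=
  (∏ x ∈ S, U s(z x, z u)) * (if b then R u (z u) else 1)

/-- the additional factor at the first vertex -/
noncomputable def bf (U : Sym2 Ω → ℝ) (R : V → Ω → ℝ) (a : V) : Option (Option V) → (V → Ω) → ℝ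
  | none, _ => 1
  | some none, z => R a (z a)
  | some (some c), z => U s(z a, z c)

/-- the function of a shape -/
noncomputable def psi (U : Sym2 Ω → ℝ) (R : V → Ω → ℝ) (a : V) (L : List V)
    (B : Option (Option V)) (S : Finset V) (b : Bool) (z : V → Ω) : ℝ :=
  pU U a L z * bf U R a B z * cl U R (hd a L) S b z

/-- the kept sets during the exploration along the path `(a, L)`, `O` = kept sets of the base -/
def kO (H : SimpleGraph V) [DecidableRel H.Adj] (o : V → ℕ) (O : V → Finset V) (a : V) :
    List V → V → Finset V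
  | [] => O
  | w :: L => Function.update (kO H o O a L) (hd a L)
      ((H.neighborFinset (hd a L)).filter fun w' => o w' < o w)

/-- the bound of a shape -/
noncomputable def TT3 (μ : Measure Ω) (U : Sym2 Ω → ℝ) (R : V → Ω → ℝ) (κ : ℝ) (a : V)
    (L : List V) (B : Option (Option V)) (S : Finset V) (b : Bool) : ℝ :=
  if B = some none ∧ b = true then
    κ ^ L.length * Real.sqrt (rr μ R a) * Real.sqrt (rr μ R (hd a L))
  else if B = some none then
    Real.sqrt (rr μ R a * κ ^ L.length *
      (κ ^ (L.length + 1 - 2 * gk a L B S) * ck μ U (gk a L B S)))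
  else if b = true then
    Real.sqrt (rr μ R (hd a L) * κ ^ L.length *
      (κ ^ (L.length + 1 - 2 * gk a L B S) * ck μ U (gk a L B S)))
  else κ ^ (L.length + 1 - 2 * gk a L B S) * ck μ U (gk a L B S)

/-- the main terms: cycles `v, a, …` through `v` inside `insert v Λ`, each cycle once -/
noncomputable def Mn (H : SimpleGraph V) [DecidableRel H.Adj] (o : V → ℕ) (μ : Measure Ω)
    (U : Sym2 Ω → ℝ) (R : V → Ω → ℝ) (v : V) (Λ : Finset V) : ℝ :=
  ∑ j ∈ range (Fintype.card V), ∑ a ∈ Λ.filter (fun a => H.Adj v a),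
    ∑ L ∈ (Wk H a Λ j).filter (fun L => H.Adj v (hd a L) ∧ o (hd a L) < o a),
      ck μ U ((j + 2) / 2) * ZE H μ U R (Λ \ vs a L)

/-- the canonical cycles of length `2 k`: `(v, a, L)` -/
noncomputable def Cyc (H : SimpleGraph V) [DecidableRel H.Adj] (o : V → ℕ) (k : ℕ) :
    Finset (V × V × List V) :=
  (univ : Finset V).biUnion fun v => ((univ : Finset V).filter fun a => H.Adj v a ∧ o a < o v).biUnion
    fun a => (((Wk H a (univ.filter fun u => o u < o v) (2 * k - 2)).filter
      fun L => H.Adj v (hd a L) ∧ o (hd a L) < o a).image fun L => (v, a, L))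

end kernel

section more

variable {V : Type*} [Fintype V] [DecidableEq V] {Ω : Type*} [MeasurableSpace Ω]
variable (H : SimpleGraph V) [DecidableRel H.Adj] (o : V → ℕ)
variable (μ : Measure Ω) [IsProbabilityMeasure μ]

/-- the admissible closings at `u`: chords to explored vertices which keep `u`, and the mark -/
noncomputable def Cq (X : Finset V) (O : V → Finset V) (u : V) : Finset (Finset V × Bool) :=
  ((X.filter fun x => u ∈ O x).powerset ×ˢ (univ : Finset Bool)).filter fun q => q ≠ (∅, false)

/-- the kept sets at the beginning -/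
noncomputable def O1 (v a : V) : V → Finset V :=
  Function.update (fun _ => ∅) v ((H.neighborFinset v).filter fun w => o w < o a)

/-- the generic bound of the terms: `T` bounds the integrals of the shapes -/
def TB (U : Sym2 Ω → ℝ) (R : V → Ω → ℝ)
    (T : V × List V × Option (Option V) × Finset V × Bool → ℝ) : Prop :=
  ∀ q, Shape H q.1 q.2.1 q.2.2.1 q.2.2.2.1 q.2.2.2.2 → ∀ h : V → Ω → ℝ, (∀ v, BM (h v)) →
    (∀ v s, |h v s| ≤ 1) →
    |∫ z, psi U R q.1 q.2.1 q.2.2.1 q.2.2.2.1 q.2.2.2.2 z * ∏ x ∈ vs q.1 q.2.1, h x (z x)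
      ∂(piM V μ)| ≤ T q

/-- the sum of the bounds of the shapes which contain `v` -/
noncomputable def Er (U : Sym2 Ω → ℝ) (R : V → Ω → ℝ)
    (T : V × List V × Option (Option V) × Finset V × Bool → ℝ) (v : V) (Λ : Finset V) : ℝ :=
  ∑ j ∈ range (Fintype.card V), ∑ q ∈ (Shs H (insert v Λ) j).filter (fun q => v ∈ vs q.1 q.2.1),
    2 ^ (j + 1) * T q * ZE H μ U R (insert v Λ \ vs q.1 q.2.1)

/-- the chord at the first vertex -/
noncomputable def bc (U : Sym2 Ω → ℝ) (a : V) : Option (Option V) → (V → Ω) → ℝ
  | some (some c), z => U s(z a, z c)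
  | _, _ => 1

end more

end Vale.Agent.P050.Opt
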