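import Vale.Agent.P050.O.H300.Defs

set_option linter.all false

/-!
Dense targets, graphs built by gluing: definitions.
-/

open MeasureTheory Finset

namespace Vale.Agent.P050.Opt

open Vale.Agent.P050 Vale.Agent.P050.Dense

/-- The least class of graphs which contains the bipartite graphs of maximum degree at most `D`
and the graphs with a vertex `a` adjacent to all vertices of the opposite part, and which is
closed under gluing two members at (at most) one vertex, and under gluing copies of one member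
along a set `S` of vertices which induces a forest. -/
inductive Built (D : ℕ) : (V : Type) → SimpleGraph V → Prop
  | base (V : Type) (H : SimpleGraph V) : Finite V → H.IsBipartite →
      (∀ v, (H.neighborSet v).ncard ≤ D) → Built D V H
  | dom (V : Type) (H : SimpleGraph V) (a : V) : Finite V →
      (∀ u v, H.Adj u v → (H.Adj a u ↔ ¬ H.Adj a v)) → Built D V H
  | glue (V₁ V₂ V : Type) (H₁ : SimpleGraph V₁) (H₂ : SimpleGraph V₂) (f₁ : V₁ ↪ V)
      (f₂ : V₂ ↪ V) : Built D V₁ H₁ → Built D V₂ H₂ →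
      (∀ u v u' v', f₁ u = f₂ v → f₁ u' = f₂ v' → u = u') →
      (∀ x, (∃ u, f₁ u = x) ∨ ∃ v, f₂ v = x) → Built D V (H₁.map f₁ ⊔ H₂.map f₂)
  | copies (V₀ V ι : Type) (H : SimpleGraph V₀) (S : Set V₀) (f : ι → V₀ ↪ V) : Finite ι →
      Built D V₀ H → (H.induce S).IsAcyclic → (∀ i j, ∀ u ∈ S, f i u = f j u) →
      (∀ i j u v, f i u = f j v → u = v ∧ (i = j ∨ u ∈ S)) →
      (∀ x, ∃ i u, f i u = x) → Built D V (⨆ i, H.map (f i))

section

variable {V : Type*} [Fintype V] [DecidableEq V] {Ω : Type*} [Fintype Ω] [DecidableEq Ω]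

/-- normalised weights and kernels -/
structure Wt (w : Ω → ℝ) (U : Sym2 Ω → ℝ) : Prop where
  pos : ∀ s, 0 < w s
  sum : ∑ s, w s = 1
  nn : ∀ e, 0 ≤ 1 + U e
  marg : ∀ s, ∑ t, w t * U s(s, t) = 0

open scoped Classical in
/-- the weight of a configuration -/
noncomputable def mH (H : SimpleGraph V) (w : Ω → ℝ) (U : Sym2 Ω → ℝ) (z : V → Ω) : ℝ :=
  (∏ v, w (z v)) * ∏ e ∈ H.edgeFinset, (1 + U (e.map z))

/-- a law `g` of configurations with all vertex marginals `w` and nonpositive relative entropy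
with respect to `mH` -/
def Ent (H : SimpleGraph V) (w : Ω → ℝ) (U : Sym2 Ω → ℝ) : Prop :=
  ∃ g : (V → Ω) → ℝ, (∀ z, 0 ≤ g z) ∧ ∑ z, g z = 1 ∧
    (∀ v s, ∑ z ∈ univ.filter (fun z : V → Ω => z v = s), g z = w s) ∧
    (∀ z, mH H w U z = 0 → g z = 0) ∧
    ∑ z, g z * Real.log (g z / mH H w U z) ≤ 0

end

end Vale.Agent.P050.Opt
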