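import Vale.Agent.P050.O.H774.LongAll
import Vale.Agent.P050.O.H322.AsmCL
import Vale.Agent.P050.O.H322.KpowCls
import Vale.Agent.P050.O.H694.ClassIneq
import Vale.Agent.P050.O.H111.BlakleyRoy

set_option linter.all false

/-!
Long subdivisions, all lengths.
-/

open MeasureTheory Finset

namespace Vale.Agent.P050.Opt.H300

open Vale.Agent.P050 Vale.Agent.P050.Dense Vale.Agent.P050.Opt

/-- high powers of a kernel, bipartite graphs of bounded degree -/
theorem stK : H774.StK := by
  classical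
  intro X _ _ _ W hs h0 D
  have hD : (0:ℝ) < 3 * 10 ^ 13 * ((D + 1 : ℕ) : ℝ) := by positivity
  obtain ⟨L, hL1, hL⟩ := kpow_cls W hs h0 (η := (3 * 10 ^ 13 * ((D + 1 : ℕ) : ℝ))⁻¹)
    (inv_pos.mpr hD)
  refine ⟨L, fun k hk V _ _ H _ hH hd => ?_⟩
  have hk1 : 1 ≤ k := le_trans hL1 hk
  obtain ⟨h2, h3⟩ := hL k hk
  have hc : (0:ℝ) < (Fintype.card X : ℝ) ^ (k - 1) := by
    have := Fintype.card_pos (α := X)
    positivity
  have hnn : ∀ x y, 0 ≤ kpow W k x y := fun x y =>
    div_nonneg (H774.pow_entry_nonneg (fun x y => h0 x y) _ _ _) hc.le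
  have hmain : pden (kpow W k) ^ H.edgeFinset.card ≤ tden H (kpow W k) (kpow_symm hs k) := by
    refine H261.pden_le_of_conn H _ hnn (fun c => ?_)
    intro _ _ _
    exact H694.class_ineq _ (H261.induce_bip hH _) (H261.comp_conn _ c) (D := D + 1)
      (by omega) (clIneq_asm (by omega) (Assembled.base _ _ inferInstance
        (H261.induce_bip hH _) (fun v => le_trans (H261.induce_deg hd _ v) (by omega))))
      (inv_pos.mpr hD).le (by rw [mul_inv_cancel₀ hD.ne']) _ _ hnn
      (H774.cls (Matrix.of W)) h2 h3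
  refine le_trans ?_ hmain
  rw [pow_mul]
  exact pow_le_pow_left₀ (pow_nonneg (div_nonneg (Finset.sum_nonneg fun x _ =>
      Finset.sum_nonneg fun y _ => h0 x y) (by positivity)) _) (H111.pden_kpow hs h0 hk1) _

/-- **Long subdivisions**, all lengths, all targets with at most `n` vertices -/
theorem long_subdiv_all (n D : ℕ) :
    ∃ L : ℕ, ∀ ℓ ≥ L, ∀ (X : Type) [Finite X] [Nonempty X] (G : SimpleGraph X),
      Nat.card X ≤ n → ∀ (V : Type) [Finite V] (F : SimpleGraph V),
      (∀ v, (F.neighborSet v).ncard ≤ D) → (subdiv ℓ F).IsBipartite →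
      edgeDensity G ^ Nat.card (subdiv ℓ F).edgeSet ≤ homDensity (subdiv ℓ F) G :=
  H774.long_all_of stK n D

end Vale.Agent.P050.Opt.H300
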