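import Vale.Agent.P050.O.H234.AllLog
import Vale.Agent.P050.O.H738.Small

set_option linter.all false

/-!
Long subdivisions: final form.
-/

open MeasureTheory Finset

namespace Vale.Agent.P050.Opt.H300

open Vale.Agent.P050 Vale.Agent.P050.Dense Vale.Agent.P050.Opt

/-- **Long subdivisions** of all graphs: the length is at least a constant times the logarithm of
the maximum degree -/
theorem long_log (n : ℕ) {j : ℕ} (hj : 1 ≤ j) {ε : ℝ} (hε : 0 < ε) :
    ∃ C : ℝ, ∀ D ℓ : ℕ, C * Real.log (D + 2) ≤ ℓ →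
      ∀ (X : Type) [Finite X] [Nonempty X] (G : SimpleGraph X),
      (Nat.card X ≤ n ∨ ∀ x y, (∃ q : G.Walk x y, Even q.length ∧ q.length ≠ 0) →
        ε * (Nat.card X : ℝ) ^ (2 * j - 1) ≤ Nat.card {q : G.Walk x y // q.length = 2 * j}) →
      ∀ (V : Type) [Finite V] (F : SimpleGraph V),
      (∀ v, (F.neighborSet v).ncard ≤ D) → (subdiv ℓ F).IsBipartite →
      edgeDensity G ^ Nat.card (subdiv ℓ F).edgeSet ≤ homDensity (subdiv ℓ F) G := by
  obtain ⟨C₁, h₁⟩ := H234.all_log hj hε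
  rcases Nat.eq_zero_or_pos n with hn | hn
  · refine ⟨C₁, fun D ℓ hℓ X _ _ G hG V _ F hF hb => ?_⟩
    refine h₁ D ℓ hℓ X G (hG.resolve_left fun h => ?_) V F hF hb
    have := Nat.card_pos (α := X)
    omega
  · obtain ⟨δ, hδ, hs⟩ := H738.small_hyp n hn
    obtain ⟨C₂, h₂⟩ := H234.all_log (Nat.succ_le_of_lt hn) hδ
    refine ⟨max C₁ C₂, fun D ℓ hℓ X _ _ G hG V _ F hF hb => ?_⟩
    have hlog : 0 ≤ Real.log ((D : ℝ) + 2) :=
      Real.log_nonneg (by linarith [Nat.cast_nonneg (α := ℝ) D])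
    rcases hG with hG | hG
    · exact h₂ D ℓ (le_trans (mul_le_mul_of_nonneg_right (le_max_right _ _) hlog) hℓ) X G
        (hs X G hG) V F hF hb
    · exact h₁ D ℓ (le_trans (mul_le_mul_of_nonneg_right (le_max_left _ _) hlog) hℓ) X G hG
        V F hF hb

end Vale.Agent.P050.Opt.H300
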