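import Vale.Agent.P050.O.H300.Stage2
import Vale.Agent.P050.O.H998.S5c

set_option linter.all false

/-!
Dense targets, optimal order: S6, literal statement of the plan.
-/

open MeasureTheory Finset

namespace Vale.Agent.P050.Opt

open Vale.Agent.P050 Vale.Agent.P050.Dense

variable {V : Type*} [Fintype V] [DecidableEq V] {Ω : Type*} [MeasurableSpace Ω]
variable (H : SimpleGraph V) [DecidableRel H.Adj] (o : V → ℕ)
variable (μ : Measure Ω) [IsProbabilityMeasure μ] {U : Sym2 Ω → ℝ} {R : V → Ω → ℝ} {κ η : ℝ}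

/-- S6: all together -/
theorem stage {D : ℕ} (ho : Function.Injective o) (hH : H.IsBipartite) (hD : ∀ v, H.degree v ≤ D)
    (hU : Ker μ U κ η) (hη : (1 + η) ^ D ≤ 2) (hR : One μ R) (hκ : 24 * D * κ ≤ 1)
    {T : V × List V × Option (Option V) × Finset V × Bool → ℝ} (hT0 : ∀ q, 0 ≤ T q)
    (hT : TB H μ U R T) {v : V} {Λ : Finset V} (hv : v ∉ Λ) :
    |ZE H μ U R (insert v Λ) - ZE H μ U R Λ - Mn H o μ U R v Λ| ≤ 4 * Er H μ U R T v Λ := by
  have hst : St3 H μ U R T := by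
    intro a₀ L₀ Λ O hnd hpath k hlen hk hcl hX hO
    exact stage3 H o μ ho hD hU hη hR hκ hT0 hT hnd hpath hlen hk hcl hX hO
  exact stage_of H o μ ho hH hD hU hη hR hκ hT0 hT hst hv

end Vale.Agent.P050.Opt
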