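import Vale.Agent.P050.O.H300.Bas

set_option linter.all false

/-!
Dense targets, optimal order: regrouping of the terms by shapes (combinatorial part).
-/

open MeasureTheory Finset

namespace Vale.Agent.P050.Opt

open Vale.Agent.P050 Vale.Agent.P050.Dense

section lists

variable {V : Type*}

theorem append_singleton_inj {L M : List V} {a b : V} (h : L ++ [a] = M ++ [b]) :
    L = M ∧ a = b := by
  have := List.append_inj' h rfl
  exact ⟨this.1, by simpa using this.2⟩

theorem split_inj {x₁ x₂ z₁ z₂ : List V} {v : V} (hn : (x₁ ++ v :: z₁).Nodup)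
    (h : x₁ ++ v :: z₁ = x₂ ++ v :: z₂) : x₁ = x₂ ∧ z₁ = z₂ := by
  have h1 : v ∉ x₁ := by
    intro hv
    have := (List.nodup_append.1 hn).2.2 v hv v List.mem_cons_self
    exact this rfl
  have h2 : v ∉ z₁ := (List.nodup_cons.1 (List.nodup_append.1 hn).2.1).1
  have := (List.append_cons_inj_of_notMem h1 h2).1 h
  exact ⟨this.1, this.2.2⟩

theorem rot_eq (m : List V) (v : V) {i : ℕ} (hi : i ≤ m.length) :
    (m ++ [v]).rotate i = m.drop i ++ v :: m.take i := by
  rw [List.rotate_eq_drop_append_take (by simp; omega), List.drop_append_of_le_length hi,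
    List.take_append_of_le_length hi]
  simp

theorem rot_inj {m₁ m₂ : List V} {v : V} {i₁ i₂ : ℕ} (h₁ : i₁ ≤ m₁.length)
    (h₂ : i₂ ≤ m₂.length) (hn : (m₁ ++ [v]).Nodup)
    (h : (m₁ ++ [v]).rotate i₁ = (m₂ ++ [v]).rotate i₂) : i₁ = i₂ ∧ m₁ = m₂ := by
  have hn' : ((m₁ ++ [v]).rotate i₁).Nodup := List.nodup_rotate.2 hn
  rw [rot_eq m₁ v h₁] at h hn'
  rw [rot_eq m₂ v h₂] at h
  obtain ⟨e1, e2⟩ := split_inj hn' h
  refine ⟨?_, ?_⟩
  · have := congrArg List.length e2
    simp at this
    omega
  · rw [← List.take_append_drop i₁ m₁, ← List.take_append_drop i₂ m₂, e1, e2]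

theorem last_split {l : List V} (hl : l ≠ []) (d : V) :
    l.dropLast ++ [l.getLast?.getD d] = l := by
  rw [List.getLast?_eq_some_getLast hl, Option.getD_some, List.dropLast_append_getLast]

theorem hd_dropLast {l : List V} (hl : 2 ≤ l.length) (d : V) :
    ∃ t, l.dropLast = hd d l :: t := by
  match l, hl with
  | x :: y :: l, _ => exact ⟨(y :: l).dropLast, rfl⟩

/-- in a bipartite graph -/
theorem color_path {H : SimpleGraph V} (C : H.Coloring (Fin 2)) {a : V} {L : List V}
    (h : ∀ x y, Cons a L x y → H.Adj x y) : C (hd a L) = C a ↔ Even L.length := by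
  induction L with
  | nil => simp
  | cons w L ih =>
    have h1 : H.Adj w (hd a L) := h w (hd a L) (Or.inl ⟨rfl, rfl⟩)
    have h2 := C.valid h1
    have h3 := ih fun x y hxy => h x y (Or.inr hxy)
    rw [hd_cons, List.length_cons, Nat.even_add_one, ← h3]
    have : ∀ x y z : Fin 2, x ≠ y → (x = z ↔ ¬ y = z) := by decide
    exact this _ _ _ h2

end lists

section shapes

variable {V : Type*} [Fintype V] [DecidableEq V]
variable (H : SimpleGraph V) [DecidableRel H.Adj] (o : V → ℕ)

/-- the type of the shapes -/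
abbrev Sh (V : Type*) := V × List V × Option (Option V) × Finset V × Bool

open scoped Classical in
/-- the closings of a path -/
noncomputable def SQ (a : V) (L : List V) (B : Option (Option V)) : Finset (Finset V × Bool) :=
  (univ : Finset (Finset V × Bool)).filter fun q => Shape H a L B q.1 q.2

variable {H} in
theorem mem_SQ {a : V} {L : List V} {B : Option (Option V)} {q : Finset V × Bool} :
    q ∈ SQ H a L B ↔ Shape H a L B q.1 q.2 := by
  simp [SQ]

theorem kO_eq {O : V → Finset V} {a : V} {L : List V} {x : V} (hx : x ∉ pv a L) :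
    kO H o O a L x = O x := by
  induction L with
  | nil => rfl
  | cons w L ih =>
    have hx' : x ∉ vs a L := hx
    rw [vs_eq_insert, Finset.mem_insert, not_or] at hx'
    rw [kO, Function.update_of_ne hx'.1, ih hx'.2]

theorem kO_sub {O : V → Finset V} {a : V} {L : List V} {x : V}
    (hO : O x ⊆ H.neighborFinset x) : kO H o O a L x ⊆ H.neighborFinset x := by
  induction L with
  | nil => exact hO
  | cons w L ih =>
    rw [kO]
    by_cases h : x = hd a L
    · subst h
      rw [Function.update_self]
      exact Finset.filter_subset _ _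
    · rw [Function.update_of_ne h]
      exact ih

theorem O1_sub (v a x : V) : O1 H o v a x ⊆ H.neighborFinset x := by
  unfold O1
  by_cases h : x = v
  · subst h
    rw [Function.update_self]
    exact Finset.filter_subset _ _
  · rw [Function.update_of_ne h]
    exact Finset.empty_subset _

theorem mem_Cq {X : Finset V} {O : V → Finset V} {u : V} {q : Finset V × Bool} :
    q ∈ Cq X O u ↔ (∀ x ∈ q.1, x ∈ X ∧ u ∈ O x) ∧ q ≠ (∅, false) := by
  simp only [Cq, Finset.mem_filter, Finset.mem_product, Finset.mem_powerset, Finset.mem_univ,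
    and_true]
  constructor
  · rintro ⟨h1, h2⟩
    exact ⟨fun x hx => Finset.mem_filter.1 (h1 hx), h2⟩
  · rintro ⟨h1, h2⟩
    exact ⟨fun x hx => Finset.mem_filter.2 (h1 x hx), h2⟩

/-- the chord to `v` at the last vertex -/
theorem v_mem_Cq {v a : V} {L : List V} (hv : v ∉ vs a L) :
    (({v}, false) : Finset V × Bool) ∈
      Cq ({v} ∪ pv a L) (kO H o (O1 H o v a) a L) (hd a L) ↔
      H.Adj v (hd a L) ∧ o (hd a L) < o a := by
  have h1 : v ∉ pv a L := by
    intro h
    exact hv (by rw [vs_eq_insert]; exact Finset.mem_insert_of_mem h)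
  rw [mem_Cq]
  simp only [Finset.mem_singleton, forall_eq, Finset.mem_union, true_or, true_and, kO_eq H o h1,
    O1, Function.update_self, Finset.mem_filter, SimpleGraph.mem_neighborFinset]
  constructor
  · exact fun h => h.1
  · exact fun h => ⟨h, by simp⟩

theorem Wk_erase {a : V} {Λ : Finset V} {j : ℕ} : Wk H a (Λ.erase a) j = Wk H a Λ j := by
  ext L
  rw [mem_Wk, mem_Wk]
  constructor
  · rintro ⟨h1, h2, h3, h4⟩
    exact ⟨h1, h2, fun x hx => Finset.mem_of_mem_erase (h3 x hx), h4⟩
  · rintro ⟨h1, h2, h3, h4⟩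
    refine ⟨h1, h2, fun x hx => Finset.mem_erase.2 ⟨?_, h3 x hx⟩, h4⟩
    rintro rfl
    exact (List.nodup_append.1 h2).2.2 x hx x (by simp) rfl

theorem erase_sdiff_vs {a : V} {L : List V} {Λ : Finset V} :
    Λ.erase a \ vs a L = Λ \ vs a L := by
  ext x
  simp only [Finset.mem_sdiff, Finset.mem_erase, mem_vs]
  tauto

/-- the closings which consist of one mark or of one chord, as chords or mark of the first
vertex -/
noncomputable def Bq (q : Finset V × Bool) : Option (Option V) :=
  if q.2 then some none else (q.1.toList.head?).map some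

/-- the three kinds of closings -/
def c1 (q : Finset V × Bool) : Prop := 2 ≤ q.1.card + (if q.2 then 1 else 0)

theorem one_cases {q : Finset V × Bool} (h0 : q ≠ (∅, false)) (h : ¬ c1 q) :
    (q = (∅, true)) ∨ ∃ x, q = ({x}, false) := by
  obtain ⟨S, b⟩ := q
  unfold c1 at h
  cases b
  · right
    simp only [Bool.false_eq_true, if_false, add_zero, not_le] at h
    have : S ≠ ∅ := fun h' => h0 (by rw [h'])
    have h2 := Finset.card_pos.2 (Finset.nonempty_iff_ne_empty.2 this)
    obtain ⟨x, hx⟩ := Finset.card_eq_one.1 (show S.card = 1 by omega)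
    exact ⟨x, by rw [hx]⟩
  · left
    simp only [if_true, not_le] at h
    have : S = ∅ := Finset.card_eq_zero.1 (by omega)
    rw [this]

@[simp] theorem Bq_mark : Bq ((∅, true) : Finset V × Bool) = some none := rfl

@[simp] theorem Bq_chord (x : V) : Bq (({x}, false) : Finset V × Bool) = some (some x) := by
  simp [Bq]

theorem Bq_inj {q q' : Finset V × Bool} (h0 : q ≠ (∅, false)) (h : ¬ c1 q)
    (h0' : q' ≠ (∅, false)) (h' : ¬ c1 q') (e : Bq q = Bq q') : q = q' := by
  rcases one_cases h0 h with rfl | ⟨x, rfl⟩ <;> rcases one_cases h0' h' with rfl | ⟨y, rfl⟩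
  · rfl
  · simp at e
  · simp at e
  · simp at e
    rw [e]

end shapes

end Vale.Agent.P050.Opt
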