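import Vale.Agent.P050.O.H300.Stage0

set_option linter.all false

/-!
Dense targets, optimal order: regrouping of the terms by shapes (sums).
-/

open MeasureTheory Finset

namespace Vale.Agent.P050.Opt

open Vale.Agent.P050 Vale.Agent.P050.Dense

section sums

variable {V : Type*} [Fintype V] [DecidableEq V] {Ω : Type*} [MeasurableSpace Ω]
variable (H : SimpleGraph V) [DecidableRel H.Adj] (o : V → ℕ)
variable (μ : Measure Ω) {U : Sym2 Ω → ℝ} {R : V → Ω → ℝ} {κ η : ℝ}

/-- the weight of a shape -/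
noncomputable def wt (U : Sym2 Ω → ℝ) (R : V → Ω → ℝ) (T : Sh V → ℝ) (v : V) (Λ : Finset V)
    (q : Sh V) : ℝ :=
  2 ^ (q.2.1.length + 1) * T q * ZE H μ U R (insert v Λ \ vs q.1 q.2.1)

/-- shapes inside `insert v Λ` which contain `v` -/
def Ok (v : V) (Λ : Finset V) (q : Sh V) : Prop :=
  q.1 ∈ insert v Λ ∧ (∀ x ∈ q.2.1, x ∈ insert v Λ) ∧
    Shape H q.1 q.2.1 q.2.2.1 q.2.2.2.1 q.2.2.2.2 ∧ v ∈ vs q.1 q.2.1

variable {T : Sh V → ℝ}

theorem reg (hT0 : ∀ q, 0 ≤ T q) (hZ : ∀ Λ, 0 ≤ ZE H μ U R Λ) {v : V} {Λ : Finset V}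
    {ι : Type*} (s : Finset ι) (f : ι → Sh V) (hf : Set.InjOn f s)
    (hs : ∀ i ∈ s, Ok H v Λ (f i)) :
    ∑ i ∈ s, wt H μ U R T v Λ (f i) ≤ Er H μ U R T v Λ := by
  classical
  have h1 : ∑ i ∈ s, wt H μ U R T v Λ (f i) = ∑ q ∈ s.image f, wt H μ U R T v Λ q :=
    (Finset.sum_image hf).symm
  have h2 : Er H μ U R T v Λ = ∑ q ∈ (range (Fintype.card V)).biUnion (fun j =>
      (Shs H (insert v Λ) j).filter (fun q => v ∈ vs q.1 q.2.1)), wt H μ U R T v Λ q := by
    rw [Finset.sum_biUnion]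
    · unfold Er
      refine Finset.sum_congr rfl fun j _ => Finset.sum_congr ?_ fun q hq => ?_
      · congr
      · have := (mem_Wk.1 (mem_Shs.1 (Finset.mem_filter.1 hq).1).2.1).1
        unfold wt
        rw [this]
    · intro j _ j' _ hjj'
      rw [Function.onFun, Finset.disjoint_left]
      intro q hq hq'
      have e1 := (mem_Wk.1 (mem_Shs.1 (Finset.mem_filter.1 hq).1).2.1).1
      have e2 := (mem_Wk.1 (mem_Shs.1 (Finset.mem_filter.1 hq').1).2.1).1
      exact hjj' (e1.symm.trans e2)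
  rw [h1, h2]
  refine Finset.sum_le_sum_of_subset_of_nonneg ?_ fun q _ _ => ?_
  · intro q hq
    obtain ⟨i, hi, rfl⟩ := Finset.mem_image.1 hq
    obtain ⟨g1, g2, g3, g4⟩ := hs i hi
    refine Finset.mem_biUnion.2 ⟨(f i).2.1.length, Finset.mem_range.2 (length_lt g3.nd), ?_⟩
    exact Finset.mem_filter.2 ⟨mem_Shs.2 ⟨g1, mem_Wk.2 ⟨rfl, g3.nd, g2, g3.path⟩, g3⟩, g4⟩
  · exact mul_nonneg (mul_nonneg (by positivity) (hT0 q)) (hZ _)

variable {v : V} {Λ : Finset V}

/-- terms of the first kind -/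
theorem sum1 (hT0 : ∀ q, 0 ≤ T q) (hZ : ∀ Λ, 0 ≤ ZE H μ U R Λ) (hv : v ∉ Λ)
    (B : Option (Option V)) (Q : V → ℕ → List V → Finset (Finset V × Bool))
    (hQ : ∀ a ∈ Λ.filter (fun a => H.Adj v a), ∀ j, ∀ L ∈ Wk H a (Λ.erase a) j, ∀ q ∈ Q a j L,
      Shape H v (L ++ [a]) B q.1 q.2) :
    ∑ a ∈ Λ.filter (fun a => H.Adj v a), ∑ j ∈ range (Fintype.card V),
      ∑ L ∈ Wk H a (Λ.erase a) j, ∑ q ∈ Q a j L,
        wt H μ U R T v Λ (v, L ++ [a], B, q.1, q.2) ≤ Er H μ U R T v Λ := by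
  have key := reg (U := U) (R := R) H μ hT0 hZ (v := v) (Λ := Λ)
    (s := (Λ.filter (fun a => H.Adj v a)).sigma fun a => (range (Fintype.card V)).sigma fun j =>
      (Wk H a (Λ.erase a) j).sigma fun L => Q a j L)
    (f := fun i => (v, i.2.2.1 ++ [i.1], B, i.2.2.2.1, i.2.2.2.2)) ?_ ?_
  · simpa only [Finset.sum_sigma] using key
  · rintro ⟨a, j, L, q⟩ h ⟨a', j', L', q'⟩ h' e
    simp only [Finset.coe_sigma, Set.mem_sigma_iff, Finset.mem_coe, Finset.mem_sigma] at h h'
    simp only [Prod.mk.injEq, true_and] at e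
    obtain ⟨rfl, rfl⟩ := append_singleton_inj e.1
    have e1 := (mem_Wk.1 h.2.2.1).1
    have e2 := (mem_Wk.1 h'.2.2.1).1
    obtain rfl : j = j' := e1.symm.trans e2
    obtain rfl : q = q' := Prod.ext e.2.1 e.2.2
    rfl
  · rintro ⟨a, j, L, q⟩ h
    simp only [Finset.mem_sigma] at h
    have hsh := hQ a h.1 j L h.2.2.1 q h.2.2.2
    have h3 := (mem_Wk.1 h.2.2.1).2.2.1
    have haΛ := (Finset.mem_filter.1 h.1).1
    refine ⟨Finset.mem_insert_self _ _, ?_, hsh, ?_⟩
    · intro x hx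
      simp only [List.mem_append, List.mem_singleton] at hx
      rcases hx with hx | rfl
      · exact Finset.mem_insert_of_mem (Finset.mem_of_mem_erase (h3 x hx))
      · exact Finset.mem_insert_of_mem haΛ
    · simp

/-- terms of the second kind -/
theorem sum2 (hT0 : ∀ q, 0 ≤ T q) (hZ : ∀ Λ, 0 ≤ ZE H μ U R Λ) (hv : v ∉ Λ)
    (Q : V → ℕ → List V → Finset (Finset V × Bool))
    (hQ : ∀ a ∈ Λ.filter (fun a => H.Adj v a), ∀ j, ∀ L ∈ Wk H a (Λ.erase a) j, ∀ q ∈ Q a j L,
      q ≠ (∅, false) ∧ ¬ c1 q) :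
    ∑ a ∈ Λ.filter (fun a => H.Adj v a), ∑ j ∈ range (Fintype.card V),
      ∑ L ∈ Wk H a (Λ.erase a) j, ∑ q ∈ Q a j L,
        ∑ j' ∈ range (Fintype.card V),
        ∑ a' ∈ (Λ.erase a \ vs a L).filter (fun a' => H.Adj v a'),
        ∑ L' ∈ Wk H a' ((Λ.erase a \ vs a L).erase a') j',
        ∑ q' ∈ SQ H (hd a L) (L' ++ a' :: rvL a L v) (Bq q),
        wt H μ U R T v Λ (hd a L, L' ++ a' :: rvL a L v, Bq q, q'.1, q'.2) ≤
      Er H μ U R T v Λ := by
  have key := reg (U := U) (R := R) H μ hT0 hZ (v := v) (Λ := Λ)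
    (s := (Λ.filter (fun a => H.Adj v a)).sigma fun a => (range (Fintype.card V)).sigma fun j =>
      (Wk H a (Λ.erase a) j).sigma fun L => (Q a j L).sigma fun q =>
      (range (Fintype.card V)).sigma fun j' =>
      ((Λ.erase a \ vs a L).filter (fun a' => H.Adj v a')).sigma fun a' =>
      (Wk H a' ((Λ.erase a \ vs a L).erase a') j').sigma fun L' =>
      SQ H (hd a L) (L' ++ a' :: rvL a L v) (Bq q))
    (f := fun i => (hd i.1 i.2.2.1, i.2.2.2.2.2.2.1 ++ i.2.2.2.2.2.1 :: rvL i.1 i.2.2.1 v,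
      Bq i.2.2.2.1, i.2.2.2.2.2.2.2.1, i.2.2.2.2.2.2.2.2)) ?_ ?_
  · simpa only [Finset.sum_sigma] using key
  · rintro ⟨a, j, L, q, j', a', L', q'⟩ h ⟨b, i, M, r, i', b', M', r'⟩ h' e
    simp only [Finset.coe_sigma, Set.mem_sigma_iff, Finset.mem_coe, Finset.mem_sigma] at h h'
    obtain ⟨ha, -, hL, hq, -, ha', hL', hq'⟩ := h
    obtain ⟨hb, -, hM, hr, -, hb', hM', hr'⟩ := h'
    simp only [Prod.mk.injEq] at e
    obtain ⟨e1, e2, e3, e4, e5⟩ := e
    have hs := mem_SQ.1 hq'
    have hnd : (L' ++ a' :: rvL a L v).Nodup :=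
      (List.nodup_append.1 hs.nd).1
    have e2' : (L' ++ [a']) ++ v :: ((L ++ [a]).tail).reverse =
        (M' ++ [b']) ++ v :: ((M ++ [b]).tail).reverse := by
      have := e2
      simp only [rvL] at this
      simpa using this
    have hnd' : ((L' ++ [a']) ++ v :: ((L ++ [a]).tail).reverse).Nodup := by
      simp only [rvL] at hnd
      simpa using hnd
    obtain ⟨g1, g2⟩ := split_inj hnd' e2'
    obtain ⟨rfl, rfl⟩ := append_singleton_inj g1
    have g3 := List.reverse_injective g2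
    obtain ⟨l, hl⟩ := hd_eq a L
    obtain ⟨m, hm⟩ := hd_eq b M
    have g4 : L ++ [a] = M ++ [b] := by
      rw [hl, hm] at g3 ⊢
      simp only [List.tail_cons] at g3
      rw [g3, e1]
    obtain ⟨rfl, rfl⟩ := append_singleton_inj g4
    have f1 := (mem_Wk.1 hL).1
    have f2 := (mem_Wk.1 hM).1
    obtain rfl : j = i := f1.symm.trans f2
    have f3 := (mem_Wk.1 hL').1
    have f4 := (mem_Wk.1 hM').1
    obtain rfl : j' = i' := f3.symm.trans f4
    have c := hQ a ha j L hL q hq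
    have c' := hQ a ha j L hL r hr
    obtain rfl : q = r := Bq_inj c.1 c.2 c'.1 c'.2 e3
    obtain rfl : q' = r' := Prod.ext e4 e5
    rfl
  · rintro ⟨a, j, L, q, j', a', L', q'⟩ h
    simp only [Finset.mem_sigma] at h
    obtain ⟨ha, -, hL, hq, -, ha', hL', hq'⟩ := h
    have hs := mem_SQ.1 hq'
    have haΛ := (Finset.mem_filter.1 ha).1
    have h3 := (mem_Wk.1 hL).2.2.1
    have h3' := (mem_Wk.1 hL').2.2.1
    have ha'Λ : a' ∈ Λ := by
      have := (Finset.mem_filter.1 ha').1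
      exact Finset.mem_of_mem_erase (Finset.mem_sdiff.1 this).1
    have hvs : ∀ x ∈ L ++ [a], x ∈ insert v Λ := by
      intro x hx
      simp only [List.mem_append, List.mem_singleton] at hx
      rcases hx with hx | rfl
      · exact Finset.mem_insert_of_mem (Finset.mem_of_mem_erase (h3 x hx))
      · exact Finset.mem_insert_of_mem haΛ
    refine ⟨hvs _ (hd_mem_list a L), ?_, hs, ?_⟩
    · intro x hx
      simp only [List.mem_append, List.mem_cons, rvL, List.mem_reverse] at hx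
      rcases hx with hx | rfl | rfl | hx
      · have := Finset.mem_of_mem_erase (h3' x hx)
        exact Finset.mem_insert_of_mem (Finset.mem_of_mem_erase (Finset.mem_sdiff.1 this).1)
      · exact Finset.mem_insert_of_mem ha'Λ
      · exact Finset.mem_insert_self _ _
      · exact hvs x (List.mem_of_mem_tail hx)
    · simp [rvL]

/-- terms of the third kind -/
theorem sum3 (hT0 : ∀ q, 0 ≤ T q) (hZ : ∀ Λ, 0 ≤ ZE H μ U R Λ) (hv : v ∉ Λ)
    (Q : V → ℕ → List V → Finset (Finset V × Bool))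
    (hQ : ∀ a ∈ Λ.filter (fun a => H.Adj v a), ∀ j, ∀ L ∈ Wk H a (Λ.erase a) j, ∀ q ∈ Q a j L,
      q = ({v}, false) ∧ 1 ≤ j) :
    ∑ a ∈ Λ.filter (fun a => H.Adj v a), ∑ j ∈ range (Fintype.card V),
      ∑ L ∈ Wk H a (Λ.erase a) j, ∑ q ∈ Q a j L,
        ∑ i ∈ range (j + 2),
        ∑ j' ∈ range (Fintype.card V),
        ∑ a' ∈ (Λ.erase a \ vs a L).filter
          (fun a' => H.Adj (hd v (((L ++ [a]) ++ [v]).rotate i)) a'),
        ∑ L' ∈ Wk H a' ((Λ.erase a \ vs a L).erase a') j',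
        ∑ q' ∈ SQ H ((((L ++ [a]) ++ [v]).rotate i).getLast?.getD v)
            (L' ++ a' :: (((L ++ [a]) ++ [v]).rotate i).dropLast)
            (some (some (hd v (((L ++ [a]) ++ [v]).rotate i)))),
        wt H μ U R T v Λ ((((L ++ [a]) ++ [v]).rotate i).getLast?.getD v,
            L' ++ a' :: (((L ++ [a]) ++ [v]).rotate i).dropLast,
            some (some (hd v (((L ++ [a]) ++ [v]).rotate i))), q'.1, q'.2) ≤
      Er H μ U R T v Λ := by
  have key := reg (U := U) (R := R) H μ hT0 hZ (v := v) (Λ := Λ)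
    (s := (Λ.filter (fun a => H.Adj v a)).sigma fun a => (range (Fintype.card V)).sigma fun j =>
      (Wk H a (Λ.erase a) j).sigma fun L => (Q a j L).sigma fun q =>
      (range (j + 2)).sigma fun i =>
      (range (Fintype.card V)).sigma fun j' =>
      ((Λ.erase a \ vs a L).filter
        (fun a' => H.Adj (hd v (((L ++ [a]) ++ [v]).rotate i)) a')).sigma fun a' =>
      (Wk H a' ((Λ.erase a \ vs a L).erase a') j').sigma fun L' =>
      SQ H ((((L ++ [a]) ++ [v]).rotate i).getLast?.getD v)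
            (L' ++ a' :: (((L ++ [a]) ++ [v]).rotate i).dropLast)
            (some (some (hd v (((L ++ [a]) ++ [v]).rotate i)))))
    (f := fun i => ((((i.2.2.1 ++ [i.1]) ++ [v]).rotate i.2.2.2.2.1).getLast?.getD v,
      i.2.2.2.2.2.2.2.1 ++ i.2.2.2.2.2.2.1 ::
        (((i.2.2.1 ++ [i.1]) ++ [v]).rotate i.2.2.2.2.1).dropLast,
      some (some (hd v (((i.2.2.1 ++ [i.1]) ++ [v]).rotate i.2.2.2.2.1))),
      i.2.2.2.2.2.2.2.2.1, i.2.2.2.2.2.2.2.2.2)) ?_ ?_
  · simpa only [Finset.sum_sigma] using key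
  · rintro ⟨a, j, L, q, s, j', a', L', q'⟩ h ⟨b, i, M, r, t, i', b', M', r'⟩ h' e
    simp only [Finset.coe_sigma, Set.mem_sigma_iff, Finset.mem_coe, Finset.mem_sigma] at h h'
    obtain ⟨ha, -, hL, hq, hs, -, ha', hL', hq'⟩ := h
    obtain ⟨hb, -, hM, hr, ht, -, hb', hM', hr'⟩ := h'
    simp only [Prod.mk.injEq] at e
    obtain ⟨e1, e2, e3, e4, e5⟩ := e
    obtain ⟨rfl, hj⟩ := hQ a ha j L hL q hq
    obtain ⟨rfl, hi⟩ := hQ b hb i M hM r hr
    have f1 := (mem_Wk.1 hL).1
    have f2 := (mem_Wk.1 hM).1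
    have f3 := (mem_Wk.1 hL').1
    have f4 := (mem_Wk.1 hM').1
    have hvL : v ∉ L ++ [a] := by
      intro h
      simp only [List.mem_append, List.mem_singleton] at h
      rcases h with h | rfl
      · exact hv (Finset.mem_of_mem_erase ((mem_Wk.1 hL).2.2.1 v h))
      · exact hv (Finset.mem_filter.1 ha).1
    have hnL : ((L ++ [a]) ++ [v]).Nodup := by
      rw [List.nodup_append]
      refine ⟨(mem_Wk.1 hL).2.1, by simp, ?_⟩
      intro x hx y hy
      rw [List.mem_singleton] at hy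
      subst hy
      exact fun h => hvL (h ▸ hx)
    rw [Finset.mem_range] at hs ht
    have hsh := mem_SQ.1 hq'
    generalize hW : ((L ++ [a]) ++ [v]).rotate s = W at *
    generalize hX : ((M ++ [b]) ++ [v]).rotate t = X at *
    have lW : W.length = j + 2 := by rw [← hW, List.length_rotate]; simp [f1]
    have lX : X.length = i + 2 := by rw [← hX, List.length_rotate]; simp [f2]
    obtain ⟨w, hw⟩ := hd_dropLast (l := W) (by omega) v
    obtain ⟨x, hx⟩ := hd_dropLast (l := X) (by omega) v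
    have e3' : hd v W = hd v X := by simpa using e3
    have hnd : (L' ++ a' :: W.dropLast).Nodup := (List.nodup_append.1 hsh.nd).1
    have hnd' : ((L' ++ [a']) ++ hd v W :: w).Nodup := by
      rw [hw] at hnd
      simpa using hnd
    have e2' : (L' ++ [a']) ++ hd v W :: w = (M' ++ [b']) ++ hd v W :: x := by
      have := e2
      rw [hw, hx, ← e3'] at this
      simpa using this
    obtain ⟨g1, g2⟩ := split_inj hnd' e2'
    obtain ⟨rfl, rfl⟩ := append_singleton_inj g1
    have hWX : W = X := by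
      rw [← last_split (l := W) (by intro h; rw [h] at lW; simp at lW) v,
        ← last_split (l := X) (by intro h; rw [h] at lX; simp at lX) v, hw, hx, ← e3', g2, e1]
    have hij : j = i := by
      have := congrArg List.length hWX
      omega
    subst hij
    have key2 := rot_inj (m₁ := L ++ [a]) (m₂ := M ++ [b]) (v := v) (i₁ := s) (i₂ := t)
      (by simp [f1]; omega) (by simp [f2]; omega) hnL (by rw [hW, hX, hWX])
    obtain ⟨rfl, g5⟩ := key2
    obtain ⟨rfl, rfl⟩ := append_singleton_inj g5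
    obtain rfl : j' = i' := f3.symm.trans f4
    obtain rfl : q' = r' := Prod.ext e4 e5
    rfl
  · rintro ⟨a, j, L, q, s, j', a', L', q'⟩ h
    simp only [Finset.mem_sigma] at h
    obtain ⟨ha, -, hL, hq, hs, -, ha', hL', hq'⟩ := h
    have hsh := mem_SQ.1 hq'
    have haΛ := (Finset.mem_filter.1 ha).1
    have h3 := (mem_Wk.1 hL).2.2.1
    have f1 := (mem_Wk.1 hL).1
    have h3' := (mem_Wk.1 hL').2.2.1
    have ha'Λ : a' ∈ Λ := by
      have := (Finset.mem_filter.1 ha').1
      exact Finset.mem_of_mem_erase (Finset.mem_sdiff.1 this).1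
    have hvs : ∀ x ∈ ((L ++ [a]) ++ [v]).rotate s, x ∈ insert v Λ := by
      intro x hx
      rw [List.mem_rotate] at hx
      simp only [List.mem_append, List.mem_singleton] at hx
      rcases hx with (hx | rfl) | rfl
      · exact Finset.mem_insert_of_mem (Finset.mem_of_mem_erase (h3 x hx))
      · exact Finset.mem_insert_of_mem haΛ
      · exact Finset.mem_insert_self _ _
    have hvmem : v ∈ ((L ++ [a]) ++ [v]).rotate s := by
      rw [List.mem_rotate]
      simp
    have hne : ((L ++ [a]) ++ [v]).rotate s ≠ [] := List.ne_nil_of_mem hvmem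
    have hsplit := last_split hne v
    generalize hW : ((L ++ [a]) ++ [v]).rotate s = W at *
    refine ⟨hvs _ ?_, ?_, hsh, ?_⟩
    · rw [← hsplit]
      simp
    · intro x hx
      simp only [List.mem_append, List.mem_cons] at hx
      rcases hx with hx | rfl | hx
      · have := Finset.mem_of_mem_erase (h3' x hx)
        exact Finset.mem_insert_of_mem (Finset.mem_of_mem_erase (Finset.mem_sdiff.1 this).1)
      · exact Finset.mem_insert_of_mem ha'Λ
      · exact hvs x (List.mem_of_mem_dropLast hx)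
    · rw [← hsplit] at hvmem
      simp only [List.mem_append, List.mem_singleton] at hvmem
      rw [mem_vs]
      rcases hvmem with h | h
      · right
        simp [h]
      · left
        exact h

end sums

end Vale.Agent.P050.Opt
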