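import Vale.Agent.P050.O.H300.Stage1
import Vale.Agent.P050.O.H322.Stage
import Vale.Agent.P050.O.H128.S2

set_option linter.all false

/-!
Dense targets, optimal order, S6: all terms together.
-/

open MeasureTheory Finset

namespace Vale.Agent.P050.Opt

open Vale.Agent.P050 Vale.Agent.P050.Dense

variable {V : Type*} [Fintype V] [DecidableEq V] {Ω : Type*} [MeasurableSpace Ω]
variable (H : SimpleGraph V) [DecidableRel H.Adj] (o : V → ℕ)
variable (μ : Measure Ω) {U : Sym2 Ω → ℝ} {R : V → Ω → ℝ} {κ η : ℝ}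

/-- the terms of the first exploration -/
noncomputable def IB (U : Sym2 Ω → ℝ) (R : V → Ω → ℝ) (v : V) (Λ : Finset V)
    (B : Option (Option V)) (a : V) (L : List V) (q : Finset V × Bool) : ℝ :=
  IT H μ U R (fun z => bf U R v B z * U s(z v, z a) * pU U a L z * cl U R (hd a L) q.1 q.2 z)
    ({v} ∪ vs a L) (Function.update (kO H o (O1 H o v a) a L) (hd a L)
      (H.neighborFinset (hd a L))) (Λ.erase a \ vs a L)

/-- the main term of a cycle -/
noncomputable def mt (U : Sym2 Ω → ℝ) (R : V → Ω → ℝ) (v : V) (Λ : Finset V)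
    (a : V) (j : ℕ) (L : List V) (q : Finset V × Bool) : ℝ :=
  if q = ({v}, false) then ck μ U ((j + 2) / 2) * ZE H μ U R (Λ.erase a \ vs a L) else 0

theorem Mn_eq {v : V} {Λ : Finset V} (hv : v ∉ Λ) :
    Mn H o μ U R v Λ = ∑ a ∈ Λ.filter (fun a => H.Adj v a), ∑ j ∈ range (Fintype.card V),
      ∑ L ∈ Wk H a (Λ.erase a) j,
        ∑ q ∈ Cq ({v} ∪ pv a L) (kO H o (O1 H o v a) a L) (hd a L), mt H μ U R v Λ a j L q := by
  unfold Mn
  rw [Finset.sum_comm]
  refine Finset.sum_congr rfl fun a ha => Finset.sum_congr rfl fun j _ => ?_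
  rw [Wk_erase, Finset.sum_filter]
  refine Finset.sum_congr rfl fun L hL => ?_
  have hvL : v ∉ vs a L := by
    rw [mem_vs]
    rintro (rfl | h)
    · exact hv (Finset.mem_filter.1 ha).1
    · exact hv ((mem_Wk.1 hL).2.2.1 v h)
  unfold mt
  rw [Finset.sum_ite_eq', erase_sdiff_vs]
  exact if_congr (v_mem_Cq H o hvL).symm rfl rfl

variable [IsProbabilityMeasure μ]

theorem expand0 (ho : Function.Injective o) (hU : Ker μ U κ η) (hR : One μ R) {v : V}
    {Λ : Finset V} (hv : v ∉ Λ) :
    ZE H μ U R (insert v Λ) - ZE H μ U R Λ =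
      ∑ a ∈ Λ.filter (fun a => H.Adj v a), ∑ j ∈ range (Fintype.card V),
      ∑ L ∈ Wk H a (Λ.erase a) j,
        ∑ q ∈ Cq ({v} ∪ pv a L) (kO H o (O1 H o v a) a L) (hd a L),
          (IB H o μ U R v Λ none a L q + IB H o μ U R v Λ (some none) a L q) := by
  rw [start H o μ ho hU hR hv]
  refine Finset.sum_congr rfl fun a ha => ?_
  have haΛ := (Finset.mem_filter.1 ha).1
  have hva : a ≠ v := fun h => hv (h ▸ haΛ)
  have h1 : BM (fun z : V → Ω => 1 + R v (z v)) := (BM.const 1).add (bm_eval (hR.bm v) v)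
  have key := explore H o μ ho hU hR (X := {v}) (Λ := Λ.erase a) (O := O1 H o v a) (s := v)
    (a := a) (g := fun z => 1 + R v (z v)) h1 ?_ (Finset.mem_singleton_self v)
    (by rw [Finset.mem_singleton]; exact hva) (Finset.notMem_erase a Λ)
    (by
      rw [Finset.disjoint_singleton_left]
      exact fun h => hv (Finset.mem_of_mem_erase h))
  · rw [Finset.insert_erase haΛ] at key
    rw [key]
    refine Finset.sum_congr rfl fun j _ => Finset.sum_congr rfl fun L _ =>
      Finset.sum_congr rfl fun q _ => ?_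
    unfold IB
    rw [← IT_add H μ hU.good hR.bm]
    · refine IT_congr H μ (fun z => ?_) rfl (fun _ _ => rfl) rfl
      simp only [bf]
      ring
    · exact (((bm_bf hU.good hR.bm v _).mul (bm_U hU.good v a)).mul
        (bm_pU hU.good a L)).mul (bm_cl hU.good hR.bm _ _ _)
    · exact (((bm_bf hU.good hR.bm v _).mul (bm_U hU.good v a)).mul
        (bm_pU hU.good a L)).mul (bm_cl hU.good hR.bm _ _ _)
  · intro w hw x t
    have : v ≠ w := fun h => hw (by rw [h]; exact Finset.mem_singleton_self _)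
    simp only [Function.update_of_ne this]

open scoped Classical in
/-- the statement of S5c -/
def St3 (U : Sym2 Ω → ℝ) (R : V → Ω → ℝ) (T : Sh V → ℝ) : Prop :=
  ∀ {a₀ : V} {L₀ : List V} {Λ : Finset V}
    {O : V → Finset V} (hnd : (L₀ ++ [a₀]).Nodup) (hpath : ∀ x y, Cons a₀ L₀ x y → H.Adj x y)
    {k : ℕ} (hlen : L₀.length + 1 = 2 * k) (hk : 2 ≤ k) (hcl : H.Adj a₀ (hd a₀ L₀))
    (hX : Disjoint (vs a₀ L₀) Λ) (hO : ∀ x ∈ vs a₀ L₀, O x ⊆ H.neighborFinset x),
    |IT H μ U R (fun z => pU U a₀ L₀ z * U s(z a₀, z (hd a₀ L₀))) (vs a₀ L₀) O Λ -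
        ck μ U k * ZE H μ U R Λ| ≤
      ∑ i ∈ range (2 * k), ∑ j ∈ range (Fintype.card V),
        ∑ a ∈ Λ.filter (fun a => H.Adj (hd a₀ ((L₀ ++ [a₀]).rotate i)) a),
        ∑ L ∈ Wk H a (Λ.erase a) j, ∑ q ∈ ((univ : Finset (Finset V × Bool)).filter fun q =>
          Shape H (((L₀ ++ [a₀]).rotate i).getLast?.getD a₀)
            (L ++ a :: ((L₀ ++ [a₀]).rotate i).dropLast)
            (some (some (hd a₀ ((L₀ ++ [a₀]).rotate i)))) q.1 q.2),
          2 ^ (j + 1 + 2 * k) * T (((L₀ ++ [a₀]).rotate i).getLast?.getD a₀,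
            L ++ a :: ((L₀ ++ [a₀]).rotate i).dropLast,
            some (some (hd a₀ ((L₀ ++ [a₀]).rotate i))), q.1, q.2) * ZE H μ U R (Λ \ vs a L)

section terms

variable {T : Sh V → ℝ} {v a : V} {Λ : Finset V} {j : ℕ} {L : List V} {q : Finset V × Bool}

/-- facts on the kept sets -/
theorem upd_sub (v a : V) (L : List V) (x : V) :
    Function.update (kO H o (O1 H o v a) a L) (hd a L) (H.neighborFinset (hd a L)) x ⊆
      H.neighborFinset x := by
  by_cases h : x = hd a L
  · subst h
    rw [Function.update_self]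
  · rw [Function.update_of_ne h]
    exact kO_sub H o (O1_sub H o v a x)

/-- the second kind of terms -/
theorem term2 {D : ℕ} (ho : Function.Injective o) (hD : ∀ v, H.degree v ≤ D) (hU : Ker μ U κ η)
    (hη : (1 + η) ^ D ≤ 2) (hR : One μ R) (hκ : 24 * D * κ ≤ 1)
    (hT0 : ∀ q, 0 ≤ T q) (hT : TB H μ U R T) (hv : v ∉ Λ)
    (ha : a ∈ Λ.filter (fun a => H.Adj v a)) (hL : L ∈ Wk H a (Λ.erase a) j)
    (hq : q ∈ Cq ({v} ∪ pv a L) (kO H o (O1 H o v a) a L) (hd a L)) (h1 : ¬ c1 q)
    (h2 : q ≠ ({v}, false)) :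
    |IB H o μ U R v Λ none a L q| ≤
        ∑ j' ∈ range (Fintype.card V),
        ∑ a' ∈ (Λ.erase a \ vs a L).filter (fun a' => H.Adj v a'),
        ∑ L' ∈ Wk H a' ((Λ.erase a \ vs a L).erase a') j',
        ∑ q' ∈ SQ H (hd a L) (L' ++ a' :: rvL a L v) (Bq q),
        wt H μ U R T v Λ (hd a L, L' ++ a' :: rvL a L v, Bq q, q'.1, q'.2) := by
  classical
  have haΛ := (Finset.mem_filter.1 ha).1
  have hva := (Finset.mem_filter.1 ha).2
  obtain ⟨f1, f2, f3, f4⟩ := mem_Wk.1 hL
  have hvL : v ∉ L ++ [a] := by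
    intro h
    simp only [List.mem_append, List.mem_singleton] at h
    rcases h with h | rfl
    · exact hv (Finset.mem_of_mem_erase (f3 v h))
    · exact hv haΛ
  have hvL' : v ∉ vs a L := fun h => hvL (mem_vs'.1 h)
  have hnL : ((L ++ [a]) ++ [v]).Nodup := by
    rw [List.nodup_append]
    refine ⟨f2, by simp, ?_⟩
    intro x hx y hy
    rw [List.mem_singleton] at hy
    subst hy
    exact fun h => hvL (h ▸ hx)
  have hcons : ∀ x y, Cons (hd a L) (rvL a L v) x y → H.Adj x y := by
    intro x y hxy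
    rw [cons_rvL, cons_append] at hxy
    rcases hxy with h | ⟨rfl, rfl⟩
    · exact (f4 y x h).symm
    · exact hva
  have hvs : vs (hd a L) (rvL a L v) = {v} ∪ vs a L := vs_rvL a L v
  have hdis : Disjoint (vs (hd a L) (rvL a L v)) (Λ.erase a \ vs a L) := by
    rw [hvs, Finset.disjoint_left]
    intro x hx hx'
    rw [Finset.mem_sdiff] at hx'
    rcases Finset.mem_union.1 hx with h | h
    · rw [Finset.mem_singleton] at h
      subst h
      exact hv (Finset.mem_of_mem_erase hx'.1)
    · exact hx'.2 h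
  have hq0 := (mem_Cq.1 hq).2
  have hB : Bq q = some none ∨ ∃ c, Bq q = some (some c) ∧
      c ∈ (rvL a L v).tail.dropLast ∧ H.Adj (hd a L) c := by
    rcases one_cases hq0 h1 with rfl | ⟨x, rfl⟩
    · left; rfl
    · right
      have hx := (mem_Cq.1 hq).1 x (by simp)
      have hxv : x ≠ v := fun h => h2 (by rw [h])
      have hxp : x ∈ pv a L := by
        rcases Finset.mem_union.1 hx.1 with h | h
        · exact absurd (Finset.mem_singleton.1 h) hxv
        · exact h
      refine ⟨x, Bq_chord x, ?_, ?_⟩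
      · cases L with
        | nil => simp [pv] at hxp
        | cons w L₁ =>
          have hx2 := hx.2
          rw [hd_cons, kO] at hx2
          have hne : x ≠ hd a L₁ := by
            intro h
            rw [h, Function.update_self, Finset.mem_filter] at hx2
            exact lt_irrefl _ hx2.2
          obtain ⟨l, hl⟩ := hd_eq a L₁
          have hxm : x ∈ L₁ ++ [a] := mem_vs'.1 hxp
          rw [hl] at hxm
          rcases List.mem_cons.1 hxm with h | h
          · exact absurd h hne
          · simp only [rvL, List.cons_append, List.tail_cons, hl, List.reverse_cons,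
              List.dropLast_concat, List.mem_reverse]
            exact h
      · have := kO_sub H o (L := L) (O1_sub H o v a x) hx.2
        rw [SimpleGraph.mem_neighborFinset] at this
        exact this.symm
  have key := stage2 H o μ ho hD hU hη hR hκ hT0 hT (a₀ := hd a L) (v := v) (L₀ := rvL a L v)
    (Λ := Λ.erase a \ vs a L) (B := Bq q)
    (O := Function.update (kO H o (O1 H o v a) a L) (hd a L) (H.neighborFinset (hd a L)))
    (by rw [rvL_append]; exact List.nodup_reverse.2 hnL) hcons (by simp [rvL]) rfl hdis hB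
    (fun x _ => upd_sub H o v a L x)
  have e1 : IB H o μ U R v Λ none a L q =
      IT H μ U R (fun z => pU U (hd a L) (rvL a L v) z * bf U R (hd a L) (Bq q) z)
        (vs (hd a L) (rvL a L v)) (Function.update (kO H o (O1 H o v a) a L) (hd a L)
          (H.neighborFinset (hd a L))) (Λ.erase a \ vs a L) := by
    unfold IB
    refine IT_congr H μ (fun z => ?_) hvs.symm (fun _ _ => rfl) rfl
    rw [pU_rvL]
    rcases one_cases hq0 h1 with rfl | ⟨x, rfl⟩
    · simp only [bf, cl, Bq_mark, Finset.prod_empty, if_true]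
      ring
    · simp only [bf, cl, Bq_chord, Finset.prod_singleton, Bool.false_eq_true, if_false]
      rw [Sym2.eq_swap (a := z x)]
      ring
  rw [e1]
  refine key.trans (le_of_eq ?_)
  refine Finset.sum_congr rfl fun j' _ => Finset.sum_congr rfl fun a' ha' =>
    Finset.sum_congr rfl fun L' hL' => ?_
  refine Finset.sum_congr ?_ fun q' _ => ?_
  · ext q'
    rw [mem_SQ, Finset.mem_filter]
    simp
  · have f1' := (mem_Wk.1 hL').1
    unfold wt
    have e2 : (L' ++ a' :: rvL a L v).length + 1 = j' + 2 + (rvL a L v).length := by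
      rw [List.length_append, List.length_cons, f1']
      ring
    have e3 : insert v Λ \ vs (hd a L) (L' ++ a' :: rvL a L v) =
        (Λ.erase a \ vs a L) \ vs a' L' := by
      rw [vs_append_cons, hvs]
      ext x
      simp only [Finset.mem_sdiff, Finset.mem_insert, Finset.mem_union, Finset.mem_singleton,
        Finset.mem_erase, mem_vs]
      by_cases hxv : x = v
      · subst hxv
        simp [hv]
      · tauto
    simp only [e2, e3]

/-- the third kind of terms -/
theorem term3 (hH : H.IsBipartite) (hst : St3 H μ U R T) (hv : v ∉ Λ)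
    (ha : a ∈ Λ.filter (fun a => H.Adj v a)) (hL : L ∈ Wk H a (Λ.erase a) j)
    (hq : (({v}, false) : Finset V × Bool) ∈
      Cq ({v} ∪ pv a L) (kO H o (O1 H o v a) a L) (hd a L)) :
    1 ≤ j ∧ |IB H o μ U R v Λ none a L ({v}, false) -
        ck μ U ((j + 2) / 2) * ZE H μ U R (Λ.erase a \ vs a L)| ≤
        ∑ i ∈ range (j + 2),
        ∑ j' ∈ range (Fintype.card V),
        ∑ a' ∈ (Λ.erase a \ vs a L).filter
          (fun a' => H.Adj (hd v (((L ++ [a]) ++ [v]).rotate i)) a'),
        ∑ L' ∈ Wk H a' ((Λ.erase a \ vs a L).erase a') j',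
        ∑ q' ∈ SQ H ((((L ++ [a]) ++ [v]).rotate i).getLast?.getD v)
            (L' ++ a' :: (((L ++ [a]) ++ [v]).rotate i).dropLast)
            (some (some (hd v (((L ++ [a]) ++ [v]).rotate i)))),
        wt H μ U R T v Λ ((((L ++ [a]) ++ [v]).rotate i).getLast?.getD v,
            L' ++ a' :: (((L ++ [a]) ++ [v]).rotate i).dropLast,
            some (some (hd v (((L ++ [a]) ++ [v]).rotate i))), q'.1, q'.2) := by
  classical
  have haΛ := (Finset.mem_filter.1 ha).1
  have hva := (Finset.mem_filter.1 ha).2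
  obtain ⟨f1, f2, f3, f4⟩ := mem_Wk.1 hL
  have hvL : v ∉ L ++ [a] := by
    intro h
    simp only [List.mem_append, List.mem_singleton] at h
    rcases h with h | rfl
    · exact hv (Finset.mem_of_mem_erase (f3 v h))
    · exact hv haΛ
  have hvL' : v ∉ vs a L := fun h => hvL (mem_vs'.1 h)
  obtain ⟨hadj, hlt⟩ := (v_mem_Cq H o hvL').1 hq
  obtain ⟨C⟩ := hH
  have hne : L ≠ [] := by
    rintro rfl
    exact lt_irrefl _ hlt
  have heven : Even j := by
    rw [← f1, ← color_path C f4]
    have g1 := C.valid hva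
    have g2 := C.valid hadj
    have : ∀ x y z : Fin 2, x ≠ y → x ≠ z → z = y := by decide
    exact this _ _ _ g1 g2
  have hj : 1 ≤ j := by
    rw [← f1]
    exact List.length_pos_iff.2 hne
  refine ⟨hj, ?_⟩
  obtain ⟨m, hm⟩ := heven
  have hk : 2 * ((j + 2) / 2) = j + 2 := by omega
  have hnL : ((L ++ [a]) ++ [v]).Nodup := by
    rw [List.nodup_append]
    refine ⟨f2, by simp, ?_⟩
    intro x hx y hy
    rw [List.mem_singleton] at hy
    subst hy
    exact fun h => hvL (h ▸ hx)
  have hcons : ∀ x y, Cons v (L ++ [a]) x y → H.Adj x y := by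
    intro x y hxy
    rw [cons_append] at hxy
    rcases hxy with h | ⟨rfl, rfl⟩
    · exact f4 x y h
    · exact hva.symm
  have hvs : vs v (L ++ [a]) = {v} ∪ vs a L := by
    rw [vs_append]; rfl
  have hdis : Disjoint (vs v (L ++ [a])) (Λ.erase a \ vs a L) := by
    rw [hvs, Finset.disjoint_left]
    intro x hx hx'
    rw [Finset.mem_sdiff] at hx'
    rcases Finset.mem_union.1 hx with h | h
    · rw [Finset.mem_singleton] at h
      subst h
      exact hv (Finset.mem_of_mem_erase hx'.1)
    · exact hx'.2 h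
  have key := hst (a₀ := v) (L₀ := L ++ [a]) (Λ := Λ.erase a \ vs a L)
    (O := Function.update (kO H o (O1 H o v a) a L) (hd a L) (H.neighborFinset (hd a L)))
    hnL hcons (k := (j + 2) / 2) (by rw [hk]; simp [f1]) (by omega)
    (by rw [hd_append]; exact hadj) hdis (fun x _ => upd_sub H o v a L x)
  have e1 : IB H o μ U R v Λ none a L ({v}, false) =
      IT H μ U R (fun z => pU U v (L ++ [a]) z * U s(z v, z (hd v (L ++ [a]))))
        (vs v (L ++ [a])) (Function.update (kO H o (O1 H o v a) a L) (hd a L)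
          (H.neighborFinset (hd a L))) (Λ.erase a \ vs a L) := by
    unfold IB
    refine IT_congr H μ (fun z => ?_) hvs.symm (fun _ _ => rfl) rfl
    rw [pU_append, hd_append]
    simp only [bf, cl, Finset.prod_singleton, Bool.false_eq_true, if_false]
    ring
  rw [e1]
  refine key.trans (le_of_eq ?_)
  rw [hk]
  refine Finset.sum_congr rfl fun i hi => Finset.sum_congr rfl fun j' _ =>
    Finset.sum_congr rfl fun a' ha' => Finset.sum_congr rfl fun L' hL' => ?_
  refine Finset.sum_congr ?_ fun q' _ => ?_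
  · ext q'
    rw [mem_SQ, Finset.mem_filter]
    simp
  · have f1' := (mem_Wk.1 hL').1
    have hmem : ∀ x, x ∈ ((L ++ [a]) ++ [v]).rotate i ↔ x ∈ {v} ∪ vs a L := by
      intro x
      rw [List.mem_rotate, ← vs_rvL, mem_vs', rvL_append, List.mem_reverse]
    have hlen : (((L ++ [a]) ++ [v]).rotate i).length = j + 2 := by
      rw [List.length_rotate]
      simp [f1]
    generalize hW : ((L ++ [a]) ++ [v]).rotate i = W at *
    have hWne : W ≠ [] := by intro h; rw [h] at hlen; simp at hlen
    have hsplit := last_split hWne v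
    unfold wt
    have e2 : (L' ++ a' :: W.dropLast).length + 1 = j' + 1 + (j + 2) := by
      rw [List.length_append, List.length_cons, f1', List.length_dropLast, hlen]
      omega
    have e3 : insert v Λ \ vs (W.getLast?.getD v) (L' ++ a' :: W.dropLast) =
        (Λ.erase a \ vs a L) \ vs a' L' := by
      have e4 : ∀ x, x ∈ vs (W.getLast?.getD v) W.dropLast ↔ x ∈ {v} ∪ vs a L := by
        intro x
        rw [mem_vs', hsplit, hmem]
      rw [vs_append_cons]
      ext x
      rw [Finset.mem_sdiff, Finset.mem_union, e4]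
      simp only [Finset.mem_sdiff, Finset.mem_insert, Finset.mem_union, Finset.mem_singleton,
        Finset.mem_erase, mem_vs]
      by_cases hxv : x = v
      · subst hxv
        simp [hv]
      · tauto
    simp only [e2, e3]

end terms

/-- S6 -/
theorem stage_of {D : ℕ} (ho : Function.Injective o) (hH : H.IsBipartite)
    (hD : ∀ v, H.degree v ≤ D) (hU : Ker μ U κ η) (hη : (1 + η) ^ D ≤ 2) (hR : One μ R)
    (hκ : 24 * D * κ ≤ 1)
    {T : V × List V × Option (Option V) × Finset V × Bool → ℝ} (hT0 : ∀ q, 0 ≤ T q)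
    (hT : TB H μ U R T) (hst : St3 H μ U R T) {v : V} {Λ : Finset V} (hv : v ∉ Λ) :
    |ZE H μ U R (insert v Λ) - ZE H μ U R Λ - Mn H o μ U R v Λ| ≤ 4 * Er H μ U R T v Λ := by
  classical
  have hZ : ∀ Λ, 0 ≤ ZE H μ U R Λ := H322.ZE_nonneg H μ hU hR
  rw [expand0 H o μ ho hU hR hv, Mn_eq H o μ hv]
  simp only [← Finset.sum_sub_distrib]
  -- the bound of one term
  have key : ∀ a ∈ Λ.filter (fun a => H.Adj v a), ∀ j, ∀ L ∈ Wk H a (Λ.erase a) j,
      ∀ q ∈ Cq ({v} ∪ pv a L) (kO H o (O1 H o v a) a L) (hd a L),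
      |IB H o μ U R v Λ none a L q + IB H o μ U R v Λ (some none) a L q -
        mt H μ U R v Λ a j L q| ≤
      wt H μ U R T v Λ (v, L ++ [a], some none, q.1, q.2) +
      (if c1 q then wt H μ U R T v Λ (v, L ++ [a], none, q.1, q.2) else 0) +
      (if ¬ c1 q ∧ q ≠ ({v}, false) then
        ∑ j' ∈ range (Fintype.card V),
        ∑ a' ∈ (Λ.erase a \ vs a L).filter (fun a' => H.Adj v a'),
        ∑ L' ∈ Wk H a' ((Λ.erase a \ vs a L).erase a') j',
        ∑ q' ∈ SQ H (hd a L) (L' ++ a' :: rvL a L v) (Bq q),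
        wt H μ U R T v Λ (hd a L, L' ++ a' :: rvL a L v, Bq q, q'.1, q'.2) else 0) +
      (if q = ({v}, false) then
        ∑ i ∈ range (j + 2),
        ∑ j' ∈ range (Fintype.card V),
        ∑ a' ∈ (Λ.erase a \ vs a L).filter
          (fun a' => H.Adj (hd v (((L ++ [a]) ++ [v]).rotate i)) a'),
        ∑ L' ∈ Wk H a' ((Λ.erase a \ vs a L).erase a') j',
        ∑ q' ∈ SQ H ((((L ++ [a]) ++ [v]).rotate i).getLast?.getD v)
            (L' ++ a' :: (((L ++ [a]) ++ [v]).rotate i).dropLast)
            (some (some (hd v (((L ++ [a]) ++ [v]).rotate i)))),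
        wt H μ U R T v Λ ((((L ++ [a]) ++ [v]).rotate i).getLast?.getD v,
            L' ++ a' :: (((L ++ [a]) ++ [v]).rotate i).dropLast,
            some (some (hd v (((L ++ [a]) ++ [v]).rotate i))), q'.1, q'.2) else 0) := by
    intro a ha j L hL q hq
    have haΛ := (Finset.mem_filter.1 ha).1
    have hva := (Finset.mem_filter.1 ha).2
    have hf1 := (mem_Wk.1 hL).1
    have hw : ∀ B, 2 ^ (j + 2) * T (v, L ++ [a], B, q.1, q.2) *
        ZE H μ U R (insert v Λ \ vs v (L ++ [a])) =
        wt H μ U R T v Λ (v, L ++ [a], B, q.1, q.2) := by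
      intro B
      unfold wt
      simp [hf1]
    have t1 : |IB H o μ U R v Λ (some none) a L q| ≤
        wt H μ U R T v Λ (v, L ++ [a], some none, q.1, q.2) := by
      rw [← hw]
      exact (stage1 H o μ hD hU hη hR hκ hT0 hT hv haΛ hva hL hq (B := some none)
        (Or.inl rfl)).2
    have hsplit : ∀ x y m : ℝ, |x + y - m| ≤ |y| + |x - m| := by
      intro x y m
      calc |x + y - m| = |y + (x - m)| := by ring_nf
        _ ≤ |y| + |x - m| := abs_add_le _ _
    refine (hsplit _ _ _).trans ?_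
    rw [add_assoc, add_assoc]
    refine add_le_add t1 ?_
    have hv1 : ¬ c1 (({v}, false) : Finset V × Bool) := by
      unfold c1; simp
    by_cases h1 : c1 q
    · have h2 : q ≠ ({v}, false) := fun h => hv1 (h ▸ h1)
      rw [if_pos h1, if_neg (fun h => h.1 h1), if_neg h2, mt, if_neg h2, sub_zero, add_zero,
        add_zero, ← hw]
      exact (stage1 H o μ hD hU hη hR hκ hT0 hT hv haΛ hva hL hq (B := none)
        (Or.inr ⟨rfl, h1⟩)).2
    · by_cases h2 : q = ({v}, false)
      · subst h2
        rw [if_neg h1, if_neg (fun h => h.2 rfl), if_pos rfl, mt, if_pos rfl, zero_add, zero_add]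
        exact (term3 H o μ hH hst hv ha hL hq).2
      · rw [if_neg h1, if_pos ⟨h1, h2⟩, if_neg h2, mt, if_neg h2, sub_zero, zero_add, add_zero]
        exact term2 H o μ ho hD hU hη hR hκ hT0 hT hv ha hL hq h1 h2
  refine (Finset.abs_sum_le_sum_abs _ _).trans ?_
  refine (Finset.sum_le_sum fun a ha => (Finset.abs_sum_le_sum_abs _ _).trans
    (Finset.sum_le_sum fun j _ => (Finset.abs_sum_le_sum_abs _ _).trans
    (Finset.sum_le_sum fun L hL => (Finset.abs_sum_le_sum_abs _ _).trans
    (Finset.sum_le_sum fun q hq => key a ha j L hL q hq)))).trans ?_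
  simp only [Finset.sum_add_distrib]
  simp only [← Finset.sum_filter]
  have s1 := sum1 (U := U) (R := R) H μ hT0 hZ hv (some none)
    (fun a j L => Cq ({v} ∪ pv a L) (kO H o (O1 H o v a) a L) (hd a L))
    (fun a ha j L hL q hq => (stage1 H o μ hD hU hη hR hκ hT0 hT hv (Finset.mem_filter.1 ha).1
      (Finset.mem_filter.1 ha).2 hL hq (B := some none) (Or.inl rfl)).1)
  have s2 := sum1 (U := U) (R := R) H μ hT0 hZ hv none
    (fun a j L => (Cq ({v} ∪ pv a L) (kO H o (O1 H o v a) a L) (hd a L)).filter (fun q => c1 q))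
    (fun a ha j L hL q hq => (stage1 H o μ hD hU hη hR hκ hT0 hT hv (Finset.mem_filter.1 ha).1
      (Finset.mem_filter.1 ha).2 hL (Finset.mem_filter.1 hq).1 (B := none)
      (Or.inr ⟨rfl, (Finset.mem_filter.1 hq).2⟩)).1)
  have s3 := sum2 (U := U) (R := R) H μ hT0 hZ hv
    (fun a j L => (Cq ({v} ∪ pv a L) (kO H o (O1 H o v a) a L) (hd a L)).filter
      (fun q => ¬ c1 q ∧ q ≠ ({v}, false)))
    (fun a ha j L hL q hq => ⟨(mem_Cq.1 (Finset.mem_filter.1 hq).1).2,
      (Finset.mem_filter.1 hq).2.1⟩)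
  have s4 := sum3 (U := U) (R := R) H μ hT0 hZ hv
    (fun a j L => (Cq ({v} ∪ pv a L) (kO H o (O1 H o v a) a L) (hd a L)).filter
      (fun q => q = ({v}, false)))
    (fun a ha j L hL q hq => ⟨(Finset.mem_filter.1 hq).2, (term3 H o μ hH hst hv ha hL
      (by
        have := (Finset.mem_filter.1 hq)
        rw [this.2] at this
        exact this.1)).1⟩)
  refine le_of_le_of_eq (add_le_add (add_le_add (add_le_add s1 s2) s3) s4) (by ring)

end Vale.Agent.P050.Opt
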