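import Vale.Agent.P050.O.H300.Defs

set_option linter.all false

/-!
Dense targets, graphs glued at single vertices: definitions.
-/

open MeasureTheory Finset

namespace Vale.Agent.P050.Opt

open Vale.Agent.P050 Vale.Agent.P050.Dense

/-- the graphs obtained by repeatedly gluing at one vertex (or disjointly) graphs of maximum
degree at most `D` and graphs with a vertex `a` adjacent to all vertices of the opposite part;
every vertex except `x` is isolated in one of the two graphs which are glued -/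
inductive Glued {V : Type} (D : ℕ) : SimpleGraph V → Prop
  | base (H : SimpleGraph V) : (∀ v, (H.neighborSet v).ncard ≤ D) → Glued D H
  | dom (H : SimpleGraph V) (a : V) : (∀ u v, H.Adj u v → (H.Adj a u ↔ ¬ H.Adj a v)) → Glued D H
  | glue (H₁ H₂ : SimpleGraph V) (x : V) : Glued D H₁ → Glued D H₂ →
      (∀ v, v ≠ x → H₁.neighborSet v = ∅ ∨ H₂.neighborSet v = ∅) → Glued D (H₁ ⊔ H₂)

section

variable {V : Type*} [Fintype V] [DecidableEq V] {Ω : Type*} [MeasurableSpace Ω]

/-- the partition function with vertex weights -/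
noncomputable def Zk (H : SimpleGraph V) [DecidableRel H.Adj] (μ : Measure Ω) (U : Sym2 Ω → ℝ)
    (k : V → Ω → ℝ) : ℝ :=
  ∫ z, (∏ v, k v (z v)) * ∏ e ∈ H.edgeFinset, (1 + U (e.map z)) ∂(piM V μ)

/-- the same with the vertex `v` fixed at `s` and without its weight -/
noncomputable def Pk (H : SimpleGraph V) [DecidableRel H.Adj] (μ : Measure Ω) (U : Sym2 Ω → ℝ)
    (k : V → Ω → ℝ) (v : V) (s : Ω) : ℝ :=
  ∫ z, (∏ w ∈ univ.erase v, k w (z w)) *
    ∏ e ∈ H.edgeFinset, (1 + U (e.map (Function.update z v s))) ∂(piM V μ)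

/-- vertex weights in the box -/
def Box (k : V → Ω → ℝ) : Prop := ∀ v s, 1 ≤ k v s ∧ k v s ≤ 3 / 2

open scoped Classical in
/-- the weighted inequality for all vertex weights -/
def Star (H : SimpleGraph V) (μ : Measure Ω) (U : Sym2 Ω → ℝ) : Prop :=
  ∀ k : V → Ω → ℝ, (∀ v s, 0 < k v s) →
    0 < Zk H μ U k ∧ ∑ v, ∫ s, Real.log (k v s) ∂μ ≤ Real.log (Zk H μ U k)

end

end Vale.Agent.P050.Opt
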