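import Mathlib.Combinatorics.SimpleGraph.Basic
import Mathlib.Data.Sym.Sym2
import Mathlib.Data.Fintype.Basic

set_option linter.all false

/-!
Subdivisions of graphs: definition.
-/

namespace Vale.Agent.P050.Opt

/-- the vertices of the path which replaces the edge `e`: the position `0` and the position `ℓ`
are the ends of `e`, the positions in between are new vertices -/
noncomputable def node {V : Type} (F : SimpleGraph V) (ℓ : ℕ) (e : F.edgeSet) (i : ℕ) :
    V ⊕ (F.edgeSet × Fin (ℓ - 1)) :=
  if h : 0 < i ∧ i < ℓ then Sum.inr (e, ⟨i - 1, by omega⟩)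
  else if i = 0 then Sum.inl (Quot.out e.1).1 else Sum.inl (Quot.out e.1).2

/-- the subdivision of `F` where each edge is replaced by a path with `ℓ` edges -/
def subdiv {V : Type} (ℓ : ℕ) (F : SimpleGraph V) :
    SimpleGraph (V ⊕ (F.edgeSet × Fin (ℓ - 1))) :=
  SimpleGraph.fromRel fun x y => ∃ (e : F.edgeSet) (i : ℕ), i < ℓ ∧
    x = node F ℓ e i ∧ y = node F ℓ e (i + 1)

end Vale.Agent.P050.Opt
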